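import Vale.Agent.P371E.Spec

/-!
Continuous approximants of the potential on a large interval.
-/

namespace Vale.Agent.P371ED

open MeasureTheory Filter Topology Matrix Set
open Vale.Agent.P371 Vale.Agent.P371.G Vale.Agent.P371.PI Vale.Agent.P371E
open scoped ComplexOrder MatrixOrder Matrix.Norms.L2Operator

variable {N m : ℕ}

/-- open conditions on the form matrix -/
def Cond (γ s : ℝ) (Λ ρ L : Mat N N) : Prop :=
  L.PosDef ∧ (L + L - Λ).PosDef ∧ s < trPow γ L ∧ s < (ρ * L).trace.re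

theorem Cond.persist {ι : Type*} {l : Filter ι} {γ s : ℝ} (hγ : 0 < γ) {Λ ρ M₀ : Mat N N}
    (hΛ : Λ.IsHermitian) {M : ι → Mat N N} (h : Tendsto M l (𝓝 M₀))
    (hM : ∀ i, (M i).IsHermitian) (h0 : Cond γ s Λ ρ M₀) : ∀ᶠ i in l, Cond γ s Λ ρ (M i) := by
  obtain ⟨h1, h2, h3, h4⟩ := h0
  have e1 := eventually_posDef h hM h1
  have e2 := eventually_posDef ((h.add h).sub_const Λ) (fun i => ((hM i).add (hM i)).sub hΛ) h2
  have e3 := (tendsto_trPow h (e1.mono fun i hi => hi.posSemidef) h1.posSemidef hγ).eventually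
    (lt_mem_nhds h3)
  have hc : Continuous fun L : Mat N N => (ρ * L).trace.re :=
    Complex.continuous_re.comp (continuous_const.matrix_mul continuous_id).matrix_trace
  have e4 := ((hc.tendsto M₀).comp h).eventually (lt_mem_nhds h4)
  filter_upwards [e1, e2, e3, e4] with i a b c d
  exact ⟨a, b, c, d⟩

theorem Lam_posDef {lam : Fin N → ℝ} (h : ∀ j, lam j < 0) : (Lam lam).PosDef :=
  PosDef.diagonal fun j => by
    have : (0:ℝ) < -lam j := by linarith only [h j]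
    exact_mod_cast this

theorem trPow_Lam {lam : Fin N → ℝ} (h : ∀ j, lam j < 0) (γ : ℝ) :
    trPow γ (Lam lam) = ∑ j, |lam j| ^ γ := by
  rw [Lam, dg, trPow_diagonal]
  refine Finset.sum_congr rfl fun j _ => ?_
  rw [abs_of_neg (h j)]

theorem tendsto_LamM_sys {p : ℝ} (hp : 1 ≤ p) {W : ℝ → Mat m m} (hW : IsPotential p W)
    {lam : Fin N → ℝ} {f f' : Fin N → ℝ → Vec m} (hS : Sys W lam f f') :
    Tendsto (fun n : ℕ => LamM ((n : ℝ) + 1) W f f') atTop (𝓝 (Lam lam)) := by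
  have hWl := locInt hp hW
  refine tendsto_pi_nhds.mpr fun i => tendsto_pi_nhds.mpr fun j => ?_
  have e : Lam lam i j = (∫ x, inner ℂ (f i x) (Matrix.toEuclideanLin (W x) (f j x))) -
      (∫ x, inner ℂ (f' i x) (f' j x)) := by
    rw [eigen_relation hS.eig hS.on i j, Lam, dg, diagonal_apply]
    split_ifs with hij
    · rw [hij]
    · rfl
  rw [e]
  simp only [LamM, of_apply]
  refine Tendsto.sub_const ?_ _
  have hn : Tendsto (fun n : ℕ => (n : ℝ) + 1) atTop atTop :=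
    tendsto_atTop_add_const_right _ _ tendsto_natCast_atTop_atTop
  exact intervalIntegral_tendsto_integral
    (integrable_form hS.neg hS.eig hW.posSemidef hWl hS.on i j)
    (tendsto_neg_atTop_atBot.comp hn) hn

theorem tendsto_bound (p I c : ℝ) (hp : 0 ≤ p) :
    Tendsto (fun n : ℕ => (1 - 1 / ((n : ℝ) + 2)) ^ (1 - p) * I +
      c * (1 / ((n : ℝ) + 2)) ^ (1 + p)) atTop (𝓝 I) := by
  have h1 : Tendsto (fun n : ℕ => (1 - 1 / ((n : ℝ) + 2)) ^ (1 - p)) atTop (𝓝 1) := by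
    have h2 : Tendsto (fun n : ℕ => (1 - 1 / ((n : ℝ) + 2))) atTop (𝓝 1) := by
      have := tendsto_tn.const_sub 1
      simpa only [one_div, sub_zero] using this
    have h3 := h2.rpow_const (p := 1 - p) (Or.inl one_ne_zero)
    simpa only [one_div, Real.one_rpow] using h3
  have h2 : Tendsto (fun n : ℕ => (1 / ((n : ℝ) + 2)) ^ (1 + p)) atTop (𝓝 0) := by
    have h3 := tendsto_tn.rpow_const (p := 1 + p) (Or.inr (by linarith only [hp]))
    rwa [Real.zero_rpow (by linarith only [hp])] at h3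
  have h4 := (h1.mul_const I).add (h2.const_mul c)
  simpa only [one_div, one_mul, mul_zero, add_zero] using h4

theorem exists_approx {γ : ℝ} (hγ : 1 / 2 < γ) {W : ℝ → Mat m m} (hW : IsPotential (γ + 1 / 2) W)
    {lam : Fin N → ℝ} {f f' : Fin N → ℝ → Vec m} (hS : Sys W lam f f') (R : ℝ) {η s : ℝ}
    (hη : 0 < η) {ρ : Mat N N} (h0 : Cond γ s (Lam lam) ρ (Lam lam)) :
    ∃ (a d : ℝ) (V : ℝ → Mat m m), R + 1 ≤ a ∧ 0 < a ∧ 0 < d ∧ Continuous V ∧
      (∀ x, (V x - (d : ℂ) • 1).PosSemidef) ∧ (∫ x in (-a)..a, ‖V x - W x‖) ≤ η ∧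
      (∫ x in (-a)..a, trPow (γ + 1 / 2) (V x)) ≤ II γ W + η ∧
      Cond γ s (Lam lam) ρ (LamM a V f f') := by
  have hp : (1 : ℝ) ≤ γ + 1 / 2 := by linarith only [hγ]
  have hγ0 : 0 < γ := by linarith only [hγ]
  have hWl := locInt hp hW
  have hf : ∀ j, IsH1 (f j) (f' j) := fun j => (hS.eig j).isH1
  have hΛ := (Lam_posDef hS.neg).isHermitian
  have e1 := Cond.persist hγ0 hΛ (tendsto_LamM_sys hp hW hS)
    (fun n => LamM_isHermitian _ (fun x => (hW.posSemidef x).isHermitian) f f') h0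
  have e2 : ∀ᶠ n : ℕ in atTop, R ≤ n := tendsto_natCast_atTop_atTop.eventually_ge_atTop R
  obtain ⟨k, hk1, hk2⟩ := (e1.and e2).exists
  set a : ℝ := (k : ℝ) + 1 with ha
  have ha0 : 0 < a := by positivity
  have hL := tendsto_LamM ha0.le hWl (fun n => (continuous_Wn hWl n).locallyIntegrable) hf
    (tendsto_Wn hWl ha0.le)
  have hd : ∀ n : ℕ, (0:ℝ) < 1 / ((n : ℝ) + 2) ^ 2 := fun n => by positivity
  have hWnh : ∀ n x, (Wn W n x).IsHermitian := fun n x =>
    (posSemidef_of_sub (hd n).le (Wn_sub_posSemidef hWl hW.posSemidef n x)).isHermitian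
  have e3 := Cond.persist hγ0 hΛ hL (fun n => LamM_isHermitian a (hWnh n) f f') hk1
  have e4 := (tendsto_Wn hWl ha0.le).eventually (gt_mem_nhds hη)
  have e5 := (tendsto_bound (γ + 1 / 2) (II γ W) (2 * a * m) (by linarith only [hγ])).eventually
    (gt_mem_nhds (show II γ W < II γ W + η by linarith only [hη]))
  obtain ⟨n, hn1, hn2, hn3⟩ := (e3.and (e4.and e5)).exists
  refine ⟨a, _, Wn W n, by linarith only [hk2, ha], ha0, hd n, continuous_Wn hWl n,
    Wn_sub_posSemidef hWl hW.posSemidef n, hn2.le, ?_, hn1⟩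
  exact (integral_trPow_Wn_le hp hW ha0.le n).trans hn3.le

/-- the flip, with the solution of the Riccati equation -/
theorem core_flip {a d ε : ℝ} (ha : 0 < a) (hd : 0 < d) (hε : 0 < ε)
    {W : ℝ → Mat m m} (hWc : Continuous W) (hW : ∀ x, (W x - (d : ℂ) • 1).PosSemidef)
    {f f' : Fin N → ℝ → Vec m} (hf : ∀ j, IsH1 (f j) (f' j))
    {r : Mat N N → Mat N N} (hrc : ContinuousOn r {K | K.PosDef})
    (hlow : ∀ T : ℝ, 0 < T → ∃ d' : ℝ, 0 < d' ∧ ∀ K : Mat N N, K.PosDef →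
      2 * K.trace.re ≤ T * (a - (-a)) → ∀ (k : ℝ) (e : Fin N → ℂ),
      K *ᵥ e = k • e → (∀ v, k * qf (1 : Mat N N) v ≤ qf K v) →
      d' * qf (1 : Mat N N) e ≤ ∫ t in (-a)..a, qf (regQ ε (psiM f t * r K) (W t)) e) :
    ∃ (K : Mat N N) (F : ℝ → Mat N N), K.PosDef ∧
      (∀ t ∈ Icc (-a) a, HasDerivWithinAt F (K * K - F t * F t - regQ ε (psiM f t * r K) (W t))
        (Icc (-a) a) t) ∧
      (∀ t ∈ Icc (-a) a, (F t).IsHermitian) ∧
      (∀ t ∈ Icc (-a) a, (K - F t).PosSemidef ∧ (K + F t).PosSemidef) ∧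
      F (-a) = K ∧ F a = -K := by
  have haa : -a < a := by linarith
  have hWp : ∀ x, (W x).PosSemidef := fun x => posSemidef_of_sub hd.le (hW x)
  have hWtr : Continuous fun x => (W x).trace.re := Complex.continuous_re.comp hWc.matrix_trace
  obtain ⟨T0, hT0⟩ := (isCompact_Icc (a := -a) (b := a)).exists_bound_of_continuousOn
    hWtr.continuousOn
  set T : ℝ := |T0| + 1 with hT
  have hTpos : 0 < T := by (clear * -; positivity)
  have hTW : ∀ x ∈ Icc (-a) a, (W x).trace.re ≤ T := fun x hx =>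
    (le_abs_self _).trans ((hT0 x hx).trans ((le_abs_self _).trans (by linarith only [])))
  obtain ⟨d', hd', hlow'⟩ := hlow T hTpos
  obtain ⟨K, F, hK, _, hF, hFh, hKF, hKF', hFa, hFb⟩ := exists_flip haa
    (Q := fun K x => regQ ε (psiM f x * r K) (W x)) hTpos hd'
    (continuousOn_regQ hε hf hrc hWc _)
    (fun K _ t _ => regQ_posSemidef ε _ (hWp t))
    (fun K _ t ht => (regQ_trace_le hε _ (hWp t)).trans (hTW t ht)) hlow'
  exact ⟨K, F, hK, hF, hFh, fun t ht => ⟨hKF t ht, hKF' t ht⟩, hFa, hFb⟩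

end Vale.Agent.P371ED
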