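import Vale.Agent.P371ED.Core

/-!
Part II with deficit, all hypotheses discharged.
-/

namespace Vale.Agent.P371ED

open Matrix Filter Topology Set MeasureTheory
open Vale.Agent.P371 Vale.Agent.P371.GII
open scoped ComplexOrder MatrixOrder Matrix.Norms.L2Operator

/-- the constant in front of the deficit -/
noncomputable def cP (ν : ℝ) : ℝ :=
  (1 + ν) / (2 * (ν * ScalarInt.kc (fun r => Real.log (1 + r)) ν))

theorem cP_pos {ν : ℝ} (hν : 0 < ν) (hν1 : ν < 1) : 0 < cP ν := by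
  have := ScalarInt.log_kc_pos hν hν1
  unfold cP
  positivity

theorem partII_dfc_weight {N : ℕ} {ν : ℝ} (hν : 0 < ν) (hν1 : ν < 1) {a : ℝ} (ha : 0 < a)
    {K : Matrix (Fin N) (Fin N) ℂ} (hK : K.PosSemidef) {F Q : ℝ → Matrix (Fin N) (Fin N) ℂ}
    (hF : ∀ x ∈ Icc (-a) a, HasDerivWithinAt F (K * K - F x * F x - Q x) (Icc (-a) a) x)
    (hQc : ContinuousOn Q (Icc (-a) a)) (hQ : ∀ x ∈ Icc (-a) a, (Q x).PosSemidef)
    (h1 : F (-a) = K) (h2 : F a = -K)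
    (h3 : ∀ x ∈ Icc (-a) a, (K - F x).PosSemidef ∧ (K + F x).PosSemidef) :
    (∫ f in (-1:ℝ)..1, (1 - f ^ 2) ^ ν) * trPow (2 * ν + 1) K
      + ((1 + ν) / (ν * ScalarInt.kc (fun r => Real.log (1 + r)) ν)) *
        ∫ x in (-a)..a, ∫ t in (1:ℝ)..2,
          t ^ (ν - 1) * dfc K (F x) (((ν / (1 + ν) : ℝ) : ℂ) • Q x) t
      ≤ (1 / ν) * (ν / (1 + ν)) ^ (1 + ν) * ∫ x in (-a)..a, trPow (1 + ν) (Q x) := by
  refine partII_core_dfc hν hν1 ha hK hF hQc hQ h1 h2 h3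
    (C := ‖Vale.Agent.P371.G.retrL N‖ * ((2 * ‖K‖ ^ 2 + 1) * (3 + 2 * Real.log (2 * ‖K‖ + 2))
      + 2 * ‖K‖ ^ 2)) (fun x hx => J2_holds hK (h3 x hx).1 (h3 x hx).2) ?_ ?_
  · intro x hx t ht
    rw [← Phi_eq]
    exact Vale.Agent.P371.G.Phi_nonneg (nonneg_iff_posSemidef.mpr hK)
      (isSelfAdjoint_of hK (h3 x hx).2) (nonneg_iff_posSemidef.mpr (h3 x hx).2)
      (nonneg_iff_posSemidef.mpr (h3 x hx).1) ht
  · intro x hx t ht ht1
    rw [← Phi_eq]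
    exact (le_abs_self _).trans (Vale.Agent.P371.G.Phi_le (nonneg_iff_posSemidef.mpr hK)
      (isSelfAdjoint_of hK (h3 x hx).2) (nonneg_iff_posSemidef.mpr (h3 x hx).2)
      (nonneg_iff_posSemidef.mpr (h3 x hx).1) ht ht1)

theorem half_le_rpow {ν t : ℝ} (hν : 0 < ν) (ht : t ∈ Icc (1:ℝ) 2) : 1 / 2 ≤ t ^ (ν - 1) := by
  have h1 : t ^ (-1 : ℝ) ≤ t ^ (ν - 1) :=
    Real.rpow_le_rpow_of_exponent_le ht.1 (by linarith only [hν])
  have h0 : 0 < t := lt_of_lt_of_le one_pos ht.1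
  rw [Real.rpow_neg_one] at h1
  refine le_trans ?_ h1
  rw [one_div]
  exact inv_anti₀ h0 ht.2

section
variable {N : ℕ} {a r : ℝ} {K : Matrix (Fin N) (Fin N) ℂ} {F Q : ℝ → Matrix (Fin N) (Fin N) ℂ}

theorem continuousOn_dfc_box (hK : K.IsHermitian) {s : Set ℝ} (hFc : ContinuousOn F s)
    (hQc : ContinuousOn Q s) (hQ : ∀ x ∈ s, (Q x).PosSemidef)
    (h3 : ∀ x ∈ s, (K - F x).PosSemidef ∧ (K + F x).PosSemidef) (hr : 0 ≤ r) :
    ContinuousOn (fun p : ℝ × ℝ => dfc K (F p.1) ((r : ℂ) • Q p.1) p.2) (s ×ˢ Icc (1:ℝ) 2) :=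
  (continuousOn_dfc hK hFc hQc hQ h3 hr).mono
    (prod_mono le_rfl fun _ ht => lt_of_lt_of_le one_pos ht.1)

theorem intInt_dfc (hK : K.IsHermitian) {u v : ℝ} (huv : u ≤ v) (hFc : ContinuousOn F (Icc u v))
    (hQc : ContinuousOn Q (Icc u v)) (hQ : ∀ x ∈ Icc u v, (Q x).PosSemidef)
    (h3 : ∀ x ∈ Icc u v, (K - F x).PosSemidef ∧ (K + F x).PosSemidef) (hr : 0 ≤ r) :
    IntervalIntegrable (fun x => ∫ t in (1:ℝ)..2, dfc K (F x) ((r : ℂ) • Q x) t) volume u v :=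
  intInt_param (f := fun x t => dfc K (F x) ((r : ℂ) • Q x) t) huv one_le_two
    (continuousOn_dfc_box hK hFc hQc hQ h3 hr)

end

theorem intInt_dfc_t {N : ℕ} {K F Q : Matrix (Fin N) (Fin N) ℂ} (hK : K.IsHermitian)
    (hm : (K - F).PosSemidef) (hp : (K + F).PosSemidef) (hQ : Q.PosSemidef) {r : ℝ}
    (hr : 0 ≤ r) : IntervalIntegrable (fun t : ℝ => dfc K F ((r : ℂ) • Q) t) volume 1 2 := by
  apply ContinuousOn.intervalIntegrable
  rw [uIcc_of_le one_le_two]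
  exact (continuousOn_dfc_t hK hm hp hQ hr).mono fun _ ht => lt_of_lt_of_le one_pos ht.1

theorem integral_dfc_nonneg {N : ℕ} {K F Z : Matrix (Fin N) (Fin N) ℂ} (hK : K.IsHermitian)
    (hm : (K - F).PosSemidef) (hp : (K + F).PosSemidef) (hZ : Z.PosSemidef) :
    0 ≤ ∫ t in (1:ℝ)..2, dfc K F Z t :=
  intervalIntegral.integral_nonneg one_le_two fun _ ht =>
    dfc_nonneg hK (lt_of_lt_of_le one_pos ht.1) hm hp hZ

/-- **Part II with deficit.** -/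
theorem partII_dfc {N : ℕ} {ν : ℝ} (hν : 0 < ν) (hν1 : ν < 1) {a : ℝ} (ha : 0 < a)
    {K : Matrix (Fin N) (Fin N) ℂ} (hK : K.PosSemidef) {F Q : ℝ → Matrix (Fin N) (Fin N) ℂ}
    (hF : ∀ x ∈ Icc (-a) a, HasDerivWithinAt F (K * K - F x * F x - Q x) (Icc (-a) a) x)
    (hQc : ContinuousOn Q (Icc (-a) a)) (hQ : ∀ x ∈ Icc (-a) a, (Q x).PosSemidef)
    (h1 : F (-a) = K) (h2 : F a = -K)
    (h3 : ∀ x ∈ Icc (-a) a, (K - F x).PosSemidef ∧ (K + F x).PosSemidef) :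
    (∫ f in (-1:ℝ)..1, (1 - f ^ 2) ^ ν) * trPow (2 * ν + 1) K
      + cP ν * ∫ x in (-a)..a, ∫ t in (1:ℝ)..2, dfc K (F x) (((ν / (1 + ν) : ℝ) : ℂ) • Q x) t
      ≤ (1 / ν) * (ν / (1 + ν)) ^ (1 + ν) * ∫ x in (-a)..a, trPow (1 + ν) (Q x) := by
  refine le_trans ?_ (partII_dfc_weight hν hν1 ha hK hF hQc hQ h1 h2 h3)
  have hKh := hK.isHermitian
  have haa : -a ≤ a := by linarith only [ha]
  have hθ : 0 ≤ ν / (1 + ν) := by positivity
  have hFc : ContinuousOn F (Icc (-a) a) := fun x hx => (hF x hx).continuousWithinAt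
  have hkc := ScalarInt.log_kc_pos hν hν1
  have cbox := continuousOn_dfc_box hKh hFc hQc hQ h3 hθ
  have i1 := intInt_dfc hKh haa hFc hQc hQ h3 hθ
  have i2 : IntervalIntegrable (fun x => ∫ t in (1:ℝ)..2,
      t ^ (ν - 1) * dfc K (F x) (((ν / (1 + ν) : ℝ) : ℂ) • Q x) t) volume (-a) a :=
    intInt_param (f := fun x t => t ^ (ν - 1) * dfc K (F x) (((ν / (1 + ν) : ℝ) : ℂ) • Q x) t)
      haa one_le_two
      (((continuousOn_rpow_Ioi (ν - 1)).comp continuousOn_snd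
        fun p hp => lt_of_lt_of_le one_pos hp.2.1).mul cbox)
  have key : (1 / 2) * (∫ x in (-a)..a, ∫ t in (1:ℝ)..2,
        dfc K (F x) (((ν / (1 + ν) : ℝ) : ℂ) • Q x) t)
      ≤ ∫ x in (-a)..a, ∫ t in (1:ℝ)..2,
          t ^ (ν - 1) * dfc K (F x) (((ν / (1 + ν) : ℝ) : ℂ) • Q x) t := by
    rw [← intervalIntegral.integral_const_mul]
    refine intervalIntegral.integral_mono_on haa (i1.const_mul _) i2 fun x hx => ?_
    rw [← intervalIntegral.integral_const_mul]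
    have j1 := intInt_dfc_t hKh (h3 x hx).1 (h3 x hx).2 (hQ x hx) hθ
    refine intervalIntegral.integral_mono_on one_le_two (j1.const_mul _) ?_ fun t ht => ?_
    · apply ContinuousOn.intervalIntegrable
      rw [uIcc_of_le one_le_two]
      exact ((continuousOn_rpow_Ioi (ν - 1)).mul
        (continuousOn_dfc_t hKh (h3 x hx).1 (h3 x hx).2 (hQ x hx) hθ)).mono
        fun _ ht => lt_of_lt_of_le one_pos ht.1
    · exact mul_le_mul_of_nonneg_right (half_le_rpow hν ht)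
        (dfc_nonneg hKh (lt_of_lt_of_le one_pos ht.1) (h3 x hx).1 (h3 x hx).2
          (posSemidef_smul (hQ x hx) hθ))
  have h5 := mul_le_mul_of_nonneg_left key
    (show 0 ≤ (1 + ν) / (ν * ScalarInt.kc (fun r => Real.log (1 + r)) ν) by positivity)
  have h6 : cP ν = (1 + ν) / (ν * ScalarInt.kc (fun r => Real.log (1 + r)) ν) * (1 / 2) := by
    unfold cP
    field_simp
  rw [h6, mul_assoc]
  linarith only [h5]

end Vale.Agent.P371ED
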