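import Vale.Agent.P371ED.TLine

/-!
The tested inequality for a system, keeping the square.
-/

namespace Vale.Agent.P371ED

open MeasureTheory Filter Topology Set Matrix
open Vale.Agent.P371 Vale.Agent.P371.G Vale.Agent.P371.PI
open scoped Matrix.Norms.L2Operator ComplexOrder

variable {N m : ℕ}

theorem sum_norm_row (A : Matrix (Fin m) (Fin N) ℂ) :
    ∑ i, ‖(WithLp.toLp 2 fun k => star (A i k) : EuclideanSpace ℂ (Fin N))‖ ^ 2
      = (Aᴴ * A).trace.re := by
  rw [Matrix.trace_mul_comm, Matrix.trace, Complex.re_sum]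
  refine Finset.sum_congr rfl fun i _ => ?_
  rw [EuclideanSpace.norm_sq_eq, Matrix.diag_apply, Matrix.mul_apply, Complex.re_sum]
  refine Finset.sum_congr rfl fun k _ => ?_
  rw [Matrix.conjTranspose_apply, Complex.star_def, Complex.mul_conj, Complex.ofReal_re]
  simp [Complex.normSq_eq_norm_sq]

theorem sum_norm_ucol_sub (r : Matrix (Fin N) (Fin N) ℂ) {F : Matrix (Fin N) (Fin N) ℂ}
    (hF : F.IsHermitian) (f f' : Fin N → ℝ → EuclideanSpace ℂ (Fin m)) (x : ℝ) :
    ∑ i : Fin m, ‖ucol r f' i x - Matrix.toEuclideanLin F (ucol r f i x)‖ ^ 2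
      = ((psiM f' x * r - psiM f x * r * F)ᴴ * (psiM f' x * r - psiM f x * r * F)).trace.re := by
  rw [← sum_norm_row]
  refine Finset.sum_congr rfl fun i _ => ?_
  rw [ucol_mul hF, ucol, ucol, ← WithLp.toLp_sub]
  congr 3
  funext k
  rw [Pi.sub_apply, Matrix.sub_apply, star_sub, Matrix.mul_assoc]

/-- The tested inequality with the square:
`tr r² Λ - ε ∫ tr W + ∫ |Φ' - Φ F|² ≤ tr K² r²`, `Φ = Ψ r`. -/
theorem test_sum_sq {K r : Matrix (Fin N) (Fin N) ℂ} (hK : K.IsHermitian) (hr : r.IsHermitian)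
    {a ε : ℝ} (ha : 0 < a) (hε : 0 < ε) {W : ℝ → Matrix (Fin m) (Fin m) ℂ} (hWc : Continuous W)
    (hW : ∀ x, (W x).PosSemidef) {f f' : Fin N → ℝ → EuclideanSpace ℂ (Fin m)}
    (hf : ∀ j, IsH1 (f j) (f' j))
    (ho : ∀ i j, ∫ x, inner ℂ (f i x) (f j x) = if i = j then (1 : ℂ) else 0)
    {F : ℝ → Matrix (Fin N) (Fin N) ℂ}
    (hF : ∀ t ∈ Icc (-a) a, HasDerivWithinAt F
      (K * K - F t * F t - regQ ε (psiM f t * r) (W t)) (Icc (-a) a) t)
    (hFh : ∀ t ∈ Icc (-a) a, (F t).IsHermitian) (h0 : F (-a) = K) (h1 : F a = -K) :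
    IntervalIntegrable (fun x => ((psiM f' x * r - psiM f x * r * F x)ᴴ *
      (psiM f' x * r - psiM f x * r * F x)).trace.re) volume (-a) a ∧
    (r * r * LamM a W f f').trace.re - ε * (∫ x in (-a)..a, (W x).trace.re)
      + ∫ x in (-a)..a, ((psiM f' x * r - psiM f x * r * F x)ᴴ *
        (psiM f' x * r - psiM f x * r * F x)).trace.re ≤
      (K * K * (r * r)).trace.re := by
  have haa : -a ≤ a := by linarith
  have hQc : Continuous fun x => regQ ε (psiM f x * r) (W x) := continuous_regQ hε hf r hWc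
  have hsqi : ∀ i : Fin m, IntervalIntegrable (fun x =>
      ‖ucol r f' i x - Matrix.toEuclideanLin (F x) (ucol r f i x)‖ ^ 2) volume (-a) a := fun i =>
    (test_interval_eq (isH1_ucol r hf i) haa hK hQc.continuousOn hF hFh).1
  have hsqs : ∀ x ∈ Icc (-a) a,
      ∑ i : Fin m, ‖ucol r f' i x - Matrix.toEuclideanLin (F x) (ucol r f i x)‖ ^ 2
        = ((psiM f' x * r - psiM f x * r * F x)ᴴ *
          (psiM f' x * r - psiM f x * r * F x)).trace.re := fun x hx =>
    sum_norm_ucol_sub r (hFh x hx) f f' x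
  have hsqI : IntervalIntegrable (fun x => ((psiM f' x * r - psiM f x * r * F x)ᴴ *
      (psiM f' x * r - psiM f x * r * F x)).trace.re) volume (-a) a := by
    refine (IntervalIntegrable.sum Finset.univ fun i _ => hsqi i).congr fun x hx => ?_
    rw [uIoc_of_le haa] at hx
    rw [Finset.sum_apply]
    exact hsqs x (Ioc_subset_Icc_self hx)
  have hS : ∑ i : Fin m, ∫ x in (-a)..a,
      ‖ucol r f' i x - Matrix.toEuclideanLin (F x) (ucol r f i x)‖ ^ 2
      = ∫ x in (-a)..a, ((psiM f' x * r - psiM f x * r * F x)ᴴ *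
        (psiM f' x * r - psiM f x * r * F x)).trace.re := by
    rw [← intervalIntegral.integral_finsetSum fun i _ => hsqi i]
    refine intervalIntegral.integral_congr fun x hx => ?_
    rw [uIcc_of_le haa] at hx
    exact hsqs x hx
  refine ⟨hsqI, ?_⟩
  -- right-hand side
  have hR : ∑ i : Fin m, ∫ x, (‖ucol r f' i x‖ ^ 2 + ‖Matrix.toEuclideanLin K (ucol r f i x)‖ ^ 2) =
      ((r * r) * (Matrix.of fun j l => ∫ x, (inner ℂ (f' j x) (f' l x) : ℂ))).trace.re +
        (K * K * (r * r)).trace.re := by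
    have e1 : ∀ i : Fin m, ∫ x, (‖ucol r f' i x‖ ^ 2 + ‖Matrix.toEuclideanLin K (ucol r f i x)‖ ^ 2) =
        (∫ x, ‖ucol r f' i x‖ ^ 2) + ∫ x, ‖ucol (r * K) f i x‖ ^ 2 := by
      intro i
      rw [integral_add (integrable_norm_sq (isH1_ucol r hf i).memLp_deriv)
        (integrable_norm_sq (isH1_mulVec K (isH1_ucol r hf i)).memLp)]
      simp only [ucol_mul hK]
    simp only [e1]
    rw [Finset.sum_add_distrib, sum_integral_norm r (fun j => (hf j).memLp_deriv)
      (fun i => integrable_norm_sq (isH1_ucol r hf i).memLp_deriv),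
      sum_integral_norm (r * K) (fun j => (hf j).memLp)
      (fun i => integrable_norm_sq (isH1_ucol (r * K) hf i).memLp), hr.eq]
    congr 1
    have e2 : (Matrix.of fun j l => ∫ x, (inner ℂ (f j x) (f l x) : ℂ)) =
        (1 : Matrix (Fin N) (Fin N) ℂ) := by
      ext j l
      rw [Matrix.of_apply, ho, Matrix.one_apply]
    rw [e2, mul_one, conjTranspose_mul, hr.eq, hK.eq]
    have e3 : (r * K * (K * r)).trace = (K * K * (r * r)).trace := by
      rw [Matrix.mul_assoc, Matrix.trace_mul_comm]
      simp only [Matrix.mul_assoc]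
    rw [e3]
  -- left-hand side
  have hc : ∀ i : Fin m, Continuous fun x => (inner ℂ (ucol r f i x)
      (Matrix.toEuclideanLin (regQ ε (psiM f x * r) (W x)) (ucol r f i x)) : ℂ).re := by
    intro i
    have h1 : Continuous (ucol r f i) := (isH1_ucol r hf i).continuous_self
    have h2 : Continuous fun x => (regQ ε (psiM f x * r) (W x)) := continuous_regQ hε hf r hWc
    have h3 : Continuous fun x => Matrix.toEuclideanLin (regQ ε (psiM f x * r) (W x)) (ucol r f i x) := by
      have h4 : Continuous fun x => (regQ ε (psiM f x * r) (W x)).mulVec (WithLp.ofLp (ucol r f i x)) :=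
        h2.matrix_mulVec ((PiLp.continuous_ofLp 2 _).comp h1)
      exact (PiLp.continuous_toLp 2 _).comp h4
    exact Complex.continuous_re.comp (h1.inner h3)
  have hL : ∑ i : Fin m, ∫ x in (-a)..a, (inner ℂ (ucol r f i x)
        (Matrix.toEuclideanLin (regQ ε (psiM f x * r) (W x)) (ucol r f i x)) : ℂ).re =
      ∫ x in (-a)..a, (regQ ε (psiM f x * r) (W x) *
        ((psiM f x * r)ᴴ * (psiM f x * r))).trace.re := by
    rw [← intervalIntegral.integral_finsetSum fun i _ => (hc i).intervalIntegrable _ _]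
    refine intervalIntegral.integral_congr fun x _ => ?_
    rw [← Complex.re_sum, sum_form_ucol]
  have hsum : ∑ i : Fin m, ((∫ x in (-a)..a, (inner ℂ (ucol r f i x)
        (Matrix.toEuclideanLin (regQ ε (psiM f x * r) (W x)) (ucol r f i x)) : ℂ).re)
        + ∫ x in (-a)..a, ‖ucol r f' i x - Matrix.toEuclideanLin (F x) (ucol r f i x)‖ ^ 2) ≤
      ∑ i : Fin m, ∫ x, (‖ucol r f' i x‖ ^ 2 + ‖Matrix.toEuclideanLin K (ucol r f i x)‖ ^ 2) :=
    Finset.sum_le_sum fun i _ => test_line_sq (isH1_ucol r hf i) ha hK hQc hF hFh h0 h1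
  rw [Finset.sum_add_distrib, hL, hR, hS] at hsum
  -- lower bound of the integrand
  have hpsi := continuous_psiM hf
  have hPhi : Continuous fun x => psiM f x * r := hpsi.matrix_mul continuous_const
  have hmono : ∫ x in (-a)..a, ((W x * ((psiM f x * r) * (psiM f x * r)ᴴ)).trace.re
        - ε * (W x).trace.re) ≤
      ∫ x in (-a)..a, (regQ ε (psiM f x * r) (W x) *
        ((psiM f x * r)ᴴ * (psiM f x * r))).trace.re := by
    refine intervalIntegral.integral_mono_on haa ?_ ?_ fun x _ => regQ_test hε _ (hW x)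
    · refine Continuous.intervalIntegrable ?_ _ _
      refine (Complex.continuous_re.comp ?_).sub (continuous_const.mul (Complex.continuous_re.comp ?_))
      · exact (hWc.matrix_mul (hPhi.matrix_mul hPhi.matrix_conjTranspose)).matrix_trace
      · exact hWc.matrix_trace
    · refine Continuous.intervalIntegrable ?_ _ _
      exact Complex.continuous_re.comp
        ((continuous_regQ hε hf r hWc).matrix_mul (hPhi.matrix_conjTranspose.matrix_mul hPhi)).matrix_trace
  have hWtr : Continuous fun x => (W x).trace.re := Complex.continuous_re.comp hWc.matrix_trace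
  have hWPP : Continuous fun x => (W x * ((psiM f x * r) * (psiM f x * r)ᴴ)).trace.re :=
    Complex.continuous_re.comp
      (hWc.matrix_mul (hPhi.matrix_mul hPhi.matrix_conjTranspose)).matrix_trace
  rw [intervalIntegral.integral_sub (hWPP.intervalIntegrable _ _)
    ((hWtr.const_mul ε).intervalIntegrable _ _), intervalIntegral.integral_const_mul] at hmono
  -- identify `∫ tr W Φ Φ^*`
  have hWint : ∀ j l, Continuous fun x =>
      (inner ℂ (f j x) (Matrix.toEuclideanLin (W x) (f l x)) : ℂ) := by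
    intro j l
    have h1 := (hf j).continuous_self
    have h2 := (hf l).continuous_self
    have h3 : Continuous fun x => Matrix.toEuclideanLin (W x) (f l x) :=
      (PiLp.continuous_toLp 2 _).comp (hWc.matrix_mulVec ((PiLp.continuous_ofLp 2 _).comp h2))
    exact h1.inner h3
  have hid : ∫ x in (-a)..a, (W x * ((psiM f x * r) * (psiM f x * r)ᴴ)).trace.re =
      ((r * r) * (Matrix.of fun j l => ∫ x in (-a)..a,
        (inner ℂ (f j x) (Matrix.toEuclideanLin (W x) (f l x)) : ℂ))).trace.re := by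
    simp only [intervalIntegral.integral_of_le haa]
    rw [← integral_trace_mul_re (r * r) _
      (g := fun j l x => (inner ℂ (f j x) (Matrix.toEuclideanLin (W x) (f l x)) : ℂ))
      fun j l => ((hWint j l).integrableOn_Icc.mono_set Ioc_subset_Icc_self)]
    refine integral_congr_ae (Eventually.of_forall fun x => ?_)
    simp only
    rw [← psiM_gramW]
    congr 1
    rw [conjTranspose_mul, hr.eq]
    calc (W x * (psiM f x * r * (r * (psiM f x)ᴴ))).trace
        = ((W x * psiM f x) * ((r * r) * (psiM f x)ᴴ)).trace := by simp only [Matrix.mul_assoc]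
      _ = (((r * r) * (psiM f x)ᴴ) * (W x * psiM f x)).trace := Matrix.trace_mul_comm _ _
      _ = _ := by simp only [Matrix.mul_assoc]
  have hLam : LamM a W f f' = (Matrix.of fun j l => ∫ x in (-a)..a,
        (inner ℂ (f j x) (Matrix.toEuclideanLin (W x) (f l x)) : ℂ)) -
      (Matrix.of fun j l => ∫ x, (inner ℂ (f' j x) (f' l x) : ℂ)) := by
    ext j l
    rfl
  rw [hLam, mul_sub, Matrix.trace_sub, Complex.sub_re]
  linarith only [hsum, hmono, hid]

end Vale.Agent.P371ED
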