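import Vale.Agent.P371E.Spec
import Vale.Agent.P371ED.Main
import Vale.Agent.P371ED.TSum

/-!
The blocks `T2D` and `P2D`.
-/

namespace Vale.Agent.P371ED

open MeasureTheory Filter Topology Matrix Set
open Vale.Agent.P371 Vale.Agent.P371.G Vale.Agent.P371.PI Vale.Agent.P371E
open scoped ComplexOrder MatrixOrder Matrix.Norms.L2Operator

theorem t2d : T2D := by
  intro N m K r a ε V F f f' hK hr ha hε hVc hV hf ho hF hFh h0 h1
  exact test_sum_sq hK hr ha hε hVc hV hf ho hF hFh h0 h1

theorem dft_eq {N : ℕ} (K F Z : Mat N N) (t : ℝ) : dft K F Z t = dfc K F Z t :=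
  (dfc_eq K F Z t).symm

theorem continuousOn_eta {N : ℕ} (K : Mat N N) {F Z : ℝ → Mat N N} {s : Set ℝ}
    (hF : ContinuousOn F s) (hZ : ContinuousOn Z s) :
    ContinuousOn (fun x => eta K (F x) (Z x)) s :=
  (hZ.sub (continuousOn_const.sub (hF.mul hF))).norm.add
    ((continuousOn_const.mul hF).sub (hF.mul continuousOn_const)).norm

theorem p2d (hPW : PW) : P2D := by
  intro ν B hν hν1
  obtain ⟨C, hC, hP⟩ := hPW B
  have hc := cP_pos hν hν1
  refine ⟨C * (2 + 1 / cP ν), by positivity, ?_⟩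
  intro N a K F Q ha hK hKB hF hQc hQ h1 h2 h3 s R hs hs1 hR hRa
  have hmain := partII_dfc hν hν1 ha hK hF hQc hQ h1 h2 h3
  have hKh := hK.isHermitian
  have hθ : 0 ≤ ν / (1 + ν) := by positivity
  have haa : -a ≤ a := by linarith only [ha]
  have hRR : -R ≤ R := by linarith only [hR]
  have hsub : Icc (-R) R ⊆ Icc (-a) a := Icc_subset_Icc (by linarith only [hRa]) hRa
  have hFc : ContinuousOn F (Icc (-a) a) := fun x hx => (hF x hx).continuousWithinAt
  set G : ℝ → ℝ := fun x => ∫ t in (1:ℝ)..2, dfc K (F x) (((ν / (1 + ν) : ℝ) : ℂ) • Q x) t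
    with hG
  have iG : IntervalIntegrable G volume (-a) a := intInt_dfc hKh haa hFc hQc hQ h3 hθ
  have iGR : IntervalIntegrable G volume (-R) R :=
    intInt_dfc hKh hRR (hFc.mono hsub) (hQc.mono hsub) (fun x hx => hQ x (hsub hx))
      (fun x hx => h3 x (hsub hx)) hθ
  have hG0 : ∀ x ∈ Icc (-a) a, 0 ≤ G x := fun x hx =>
    integral_dfc_nonneg hKh (h3 x hx).1 (h3 x hx).2 (GII.posSemidef_smul (hQ x hx) hθ)
  have hpt : ∀ x ∈ Icc (-R) R, s * eta K (F x) (th ν (Q x)) ≤ C * (s ^ 2 + G x) := by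
    intro x hx
    have hx' := hsub hx
    have j1 := intInt_dfc_t hKh (h3 x hx').1 (h3 x hx').2 (hQ x hx') hθ
    have h4 : ∫ _ in (1:ℝ)..2, s * eta K (F x) (th ν (Q x)) ≤
        ∫ t in (1:ℝ)..2, C * (s ^ 2 + dfc K (F x) (((ν / (1 + ν) : ℝ) : ℂ) • Q x) t) := by
      refine intervalIntegral.integral_mono_on one_le_two intervalIntegrable_const
        ((intervalIntegrable_const.add j1).const_mul _) fun t ht => ?_
      rw [← dft_eq]
      exact hP N K (F x) (th ν (Q x)) t s hK hKB (h3 x hx').1 (h3 x hx').2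
        (GII.posSemidef_smul (hQ x hx') hθ) ht.1 ht.2 hs hs1
    rw [intervalIntegral.integral_const_mul (f := fun t =>
        s ^ 2 + dfc K (F x) (((ν / (1 + ν) : ℝ) : ℂ) • Q x) t),
      intervalIntegral.integral_add intervalIntegrable_const j1, intervalIntegral.integral_const,
      intervalIntegral.integral_const, smul_eq_mul, smul_eq_mul] at h4
    have e : (2:ℝ) - 1 = 1 := by norm_num
    rw [e, one_mul, one_mul] at h4
    exact h4
  have ie : IntervalIntegrable (fun x => eta K (F x) (th ν (Q x))) volume (-R) R := by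
    apply ContinuousOn.intervalIntegrable
    rw [uIcc_of_le hRR]
    exact continuousOn_eta K (hFc.mono hsub) ((hQc.mono hsub).const_smul ((ν / (1 + ν) : ℝ) : ℂ))
  have h5 : ∫ x in (-R)..R, s * eta K (F x) (th ν (Q x)) ≤ ∫ x in (-R)..R, C * (s ^ 2 + G x) :=
    intervalIntegral.integral_mono_on hRR (ie.const_mul _)
      ((intervalIntegrable_const.add iGR).const_mul _) hpt
  rw [intervalIntegral.integral_const_mul, intervalIntegral.integral_const_mul,
    intervalIntegral.integral_add intervalIntegrable_const iGR, intervalIntegral.integral_const,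
    smul_eq_mul] at h5
  have h6 : ∫ x in (-R)..R, G x ≤ ∫ x in (-a)..a, G x := by
    apply intervalIntegral.integral_mono_interval (by linarith only [hRa]) hRR hRa _ iG
    rw [Filter.EventuallyLE, ae_restrict_iff' measurableSet_Ioc]
    exact Eventually.of_forall fun x hx => hG0 x (Ioc_subset_Icc_self hx)
  have h7 : 0 ≤ ∫ x in (-a)..a, G x := intervalIntegral.integral_nonneg haa hG0
  set D : ℝ := (1 / ν) * (ν / (1 + ν)) ^ (1 + ν) * (∫ x in (-a)..a, trPow (1 + ν) (Q x))
      - (∫ y in (-1 : ℝ)..1, (1 - y ^ 2) ^ ν) * trPow (2 * ν + 1) K with hD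
  have h8 : cP ν * (∫ x in (-a)..a, G x) ≤ D := by linarith only [hmain, hD]
  have h9 : ∫ x in (-a)..a, G x ≤ 1 / cP ν * D := by
    rw [one_div, inv_mul_eq_div, le_div_iff₀ hc]
    linarith only [h8]
  have hD0 : 0 ≤ D := le_trans (mul_nonneg hc.le h7) h8
  have hic : 0 ≤ 1 / cP ν := by positivity
  have h10 : 0 ≤ s ^ 2 * R := by positivity
  have h11 : (R - -R) * s ^ 2 + ∫ x in (-R)..R, G x ≤ (2 + 1 / cP ν) * (s ^ 2 * R + D) := by
    have := mul_nonneg hic h10
    nlinarith only [h6, h9, hD0, this]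
  refine h5.trans ?_
  rw [mul_assoc]
  exact mul_le_mul_of_nonneg_left h11 hC.le

end Vale.Agent.P371ED
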