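import Vale.Agent.P371ED.Mid
import Vale.Agent.P371ED.Bridge

/-!
The block `APX`.
-/

namespace Vale.Agent.P371ED

open MeasureTheory Filter Topology Matrix Set
open Vale.Agent.P371 Vale.Agent.P371.G Vale.Agent.P371.PI Vale.Agent.P371E
open scoped ComplexOrder MatrixOrder Matrix.Norms.L2Operator

variable {N m : ℕ}

theorem eig_le_of_trPow {p T : ℝ} (hp : 0 < p) {K : Mat N N} (hK : K.PosSemidef)
    (h : trPow p K ≤ T) (i : Fin N) : hK.isHermitian.eigenvalues i ≤ T ^ (1 / p) := by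
  rw [trPow, dif_pos hK.isHermitian] at h
  have h0 := hK.eigenvalues_nonneg
  have h1 : hK.isHermitian.eigenvalues i ^ p ≤ T :=
    (Finset.single_le_sum (f := fun j => hK.isHermitian.eigenvalues j ^ p)
      (fun j _ => Real.rpow_nonneg (h0 j) p) (Finset.mem_univ i)).trans h
  have h2 := Real.rpow_le_rpow (Real.rpow_nonneg (h0 i) p) h1 (show 0 ≤ 1 / p by positivity)
  rwa [← Real.rpow_mul (h0 i), mul_one_div_cancel hp.ne', Real.rpow_one] at h2

theorem integral_regQ_le {p a ε : ℝ} (hp : 1 ≤ p) (ha : 0 < a) (hε : 0 < ε) {V : ℝ → Mat m m}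
    (hVc : Continuous V) (hVp : ∀ x, (V x).PosSemidef) {f f' : Fin N → ℝ → Vec m}
    (hf : ∀ j, IsH1 (f j) (f' j)) (r : Mat N N) :
    ∫ x in (-a)..a, trPow p (regQ ε (psiM f x * r) (V x)) ≤ ∫ x in (-a)..a, trPow p (V x) := by
  have hQc : Continuous fun x => regQ ε (psiM f x * r) (V x) := continuous_regQ hε hf r hVc
  have hcont : ∀ {n : ℕ} (U : ℝ → Mat n n), Continuous U →
      (∀ x, (U x).PosSemidef) → Continuous fun x => trPow p (U x) := by
    intro n U hU hUp
    refine continuous_iff_continuousAt.mpr fun x => ?_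
    exact tendsto_trPow (hU.tendsto x) (Eventually.of_forall hUp) (hUp x) (by linarith only [hp])
  refine intervalIntegral.integral_mono_on (by linarith only [ha])
    ((hcont _ hQc fun t => regQ_posSemidef ε _ (hVp t)).intervalIntegrable _ _)
    ((hcont _ hVc hVp).intervalIntegrable _ _) fun x _ => ?_
  exact regQ_trPow_le hp hε _ (hVp x)

theorem integral_sub_le {g : ℝ → ℝ} {a R : ℝ} (hR : 0 ≤ R) (hRa : R ≤ a)
    (hg : IntervalIntegrable g volume (-a) a) (h0 : ∀ x, 0 ≤ g x) :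
    ∫ x in (-R)..R, g x ≤ ∫ x in (-a)..a, g x :=
  intervalIntegral.integral_mono_interval (by linarith only [hRa]) (by linarith only [hR]) hRa
    (Eventually.of_forall h0) hg

theorem apx_of (hP : P2D) (hT : T2D) : APX := by
  intro γ hγ hγ1 m W hW R σ hR hσ
  have hγ0 : 0 < γ := by linarith only [hγ]
  have hν : 0 < γ - 1 / 2 := by linarith only [hγ]
  have hν1 : γ - 1 / 2 < 1 := by linarith only [hγ1]
  have hp : (1 : ℝ) ≤ γ + 1 / 2 := by linarith only [hγ]
  have hWl := locInt hp hW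
  have hβ := beta_pos hν
  set β := ∫ y in (-1 : ℝ)..1, (1 - y ^ 2) ^ (γ - 1 / 2) with hβd
  set c2 : ℝ := (1 / (γ - 1 / 2)) * ((γ - 1 / 2) / (γ + 1 / 2)) ^ (γ + 1 / 2) with hc2
  have hc2p : 0 < c2 := by
    rw [hc2]
    exact mul_pos (by positivity) (Real.rpow_pos_of_pos (div_pos hν (by linarith only [hγ])) _)
  have hCβ : Cg γ * β = c2 := by
    rw [Cg, ← hβd, ← hc2, div_mul_cancel₀ _ hβ.ne']
  have hC : 0 < Cg γ := by
    rw [Cg, ← hβd, ← hc2]
    positivity
  set C := Cg γ with hCd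
  set I := II γ W with hI
  have hI0 : 0 ≤ I := integral_nonneg fun x => trPow_nonneg' (hW.posSemidef x) _
  have hT0 : 0 < C * I + 1 := by positivity
  obtain ⟨C4, hC4, hP4⟩ := hP (γ - 1 / 2) (Bd γ W) hν hν1
  set M : ℝ := (C * I + 1) ^ (1 / γ) with hM
  have hM0 : 0 < M := Real.rpow_pos_of_pos hT0 _
  set cK : ℝ := γ * (γ - 1) * M ^ (γ - 2) / 2 with hcK
  set cK' : ℝ := if 1 < γ then cK else 1 with hcK'
  have hcK0 : 0 < cK' := by
    rw [hcK']
    split_ifs with h
    · have h1 : 0 < γ - 1 := by linarith only [h]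
      have h2 : 0 < M ^ (γ - 2) := Real.rpow_pos_of_pos hM0 _
      rw [hcK]
      positivity
    · exact one_pos
  set s : ℝ := min 1 (σ / (2 * C4 * R)) with hsd
  have hs0 : 0 < s := lt_min one_pos (by positivity)
  have hs1 : s ≤ 1 := min_le_left _ _
  have hs2 : C4 * s * R ≤ σ / 2 := by
    have h1 : s ≤ σ / (2 * C4 * R) := min_le_right _ _
    rw [le_div_iff₀ (by positivity)] at h1
    linarith only [h1]
  set δ : ℝ := min (min (1 / 2) (σ / 4)) (min (cK' * σ / 2) (σ * s / (4 * C4 * β))) with hδ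
  have hδ0 : 0 < δ := lt_min (lt_min (by norm_num) (by positivity))
    (lt_min (by positivity) (by positivity))
  have hδ1 : δ ≤ 1 / 2 := (min_le_left _ _).trans (min_le_left _ _)
  have hδ2 : δ ≤ σ / 4 := (min_le_left _ _).trans (min_le_right _ _)
  have hδ3 : δ ≤ cK' * σ / 2 := (min_le_right _ _).trans (min_le_left _ _)
  have hδ4 : δ * (4 * C4 * β) ≤ σ * s := by
    have h1 : δ ≤ σ * s / (4 * C4 * β) := (min_le_right _ _).trans (min_le_right _ _)
    rwa [le_div_iff₀ (by positivity)] at h1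
  refine ⟨δ, hδ0, fun N lam f f' hS hopt => ?_⟩
  set η : ℝ := δ / (C + 3) with hη
  have hη0 : 0 < η := by positivity
  have hη1 : C * η + 3 * η = δ := by
    rw [hη]
    field_simp
  have hCη : 0 ≤ C * η := by positivity
  obtain ⟨a, ε, V, K, r, F, haR, hm⟩ := exists_mid hT hγ hγ1 hW hS R hη0
  have hf : ∀ j, IsH1 (f j) (f' j) := fun j => (hS.eig j).isH1
  have ha := hm.apos
  have hRa : R ≤ a := by linarith only [haR]
  have hsub : Icc (-R) R ⊆ Icc (-a) a := Icc_subset_Icc (by linarith only [hRa]) hRa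
  have hQc : Continuous fun x => regQ ε (psiM f x * r) (V x) :=
    continuous_regQ hm.eps hf r hm.Vc
  have hQp : ∀ x, (regQ ε (psiM f x * r) (V x)).PosSemidef := fun x =>
    regQ_posSemidef ε _ (hm.Vp x)
  have e1 : 1 + (γ - 1 / 2) = γ + 1 / 2 := by ring
  have e2 : 2 * (γ - 1 / 2) + 1 = 2 * γ := by ring
  set S : ℝ := ∑ j, |lam j| ^ γ with hSd
  set T : ℝ := trPow (2 * γ) K with hTd
  set D2 : ℝ := ∫ x in (-a)..a, hs (psiM f' x * r - psiM f x * r * F x) with hD2
  set PQ : ℝ := ∫ x in (-a)..a, trPow (γ + 1 / 2) (regQ ε (psiM f x * r) (V x)) with hPQ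
  have hD0 : 0 ≤ D2 :=
    intervalIntegral.integral_nonneg (by linarith only [ha]) fun x _ => hs_nonneg _
  have hPQ1 : PQ ≤ I + η := (integral_regQ_le hp ha hm.eps hm.Vc hm.Vp hf r).trans hm.pow
  have hII := GII.partII hν hν1 ha hm.Kp.posSemidef hm.der hQc.continuousOn (fun x _ => hQp x)
    hm.left hm.right hm.sand
  rw [e1, e2, ← hβd, ← hc2, ← hTd, ← hPQ] at hII
  have hc2Q : c2 * PQ ≤ β * (C * I + C * η) := by
    have h1 := mul_le_mul_of_nonneg_left hPQ1 hc2p.le
    rw [← hCβ] at h1 ⊢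
    linarith only [h1]
  have hTle : T ≤ C * I + C * η := le_of_mul_le_mul_left (hII.trans hc2Q) hβ
  have hkl : S + γ * D2 ≤ T + 3 * η := hm.kl
  have hγD : 0 ≤ γ * D2 := mul_nonneg hγ0.le hD0
  have hT1 : T ≤ C * I + 1 := by linarith only [hTle, hη1, hδ1, hη0]
  have hS1 : S ≤ C * I + 1 := by linarith only [hTle, hη1, hδ1, hkl, hγD]
  have hKn : ‖K‖ ≤ Bd γ W := by
    refine norm_le_of_eigenvalues hm.Kp.isHermitian (Real.rpow_nonneg hT0.le _) fun i => ?_
    rw [abs_of_nonneg (hm.Kp.posSemidef.eigenvalues_nonneg i)]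
    exact eig_le_of_trPow (by positivity) hm.Kp.posSemidef hT1 i
  refine ⟨ε, V, K, r, F, hm.eps, hm.Vc, hm.Vp, hm.Kp, hKn, ?_, ?_, ?_, ?_,
    fun x hx => hm.sand x (hsub hx), ?_, hm.d2i.mono_set ?_, ?_, ?_⟩
  · linarith only [hkl, hγD, hη1, hCη, hδ2, hσ]
  · rcases hm.rdef with ⟨h1, h2, _⟩ | ⟨h1, h2, _, h4⟩
    · exact Or.inl ⟨h1, h2⟩
    · refine Or.inr ⟨h1, h2, ?_⟩
      have h5 := h4 M (fun i => eig_le_of_trPow hγ0 (posDef_mul_self hm.Kp).posSemidef
        (by rw [trPow_mul_self hm.Kp]; exact hT1) i)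
        (fun h i => eig_le_of_trPow hγ0 h.posSemidef (by rw [trPow_Lam hS.neg]; exact hS1) i)
      rw [hcK', if_pos h1] at hδ3 hcK0
      rw [← hcK, ← hSd, ← hTd] at h5
      have h6 : cK * hs (K * K - Lam lam) ≤ cK * σ := by
        linarith only [h5, hTle, hopt, hη1, hδ3]
      exact le_of_mul_le_mul_left h6 hcK0
  · rcases hm.rdef with ⟨_, _, h3⟩ | ⟨_, _, h3, _⟩
    · linarith only [h3, hTle, hη1, hδ1, hη0]
    · rw [h3]
      linarith only [hS1, hT0]
  · intro x hx
    exact (hm.der x (hsub hx)).hasDerivAt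
      (Icc_mem_nhds (by linarith only [hx.1, haR]) (by linarith only [hx.2, haR]))
  · have hi : IntervalIntegrable (fun x => ‖V x - W x‖) volume (-a) a :=
      ((hm.Vc.intervalIntegrable _ _).sub
        ((hWl.integrableOn_isCompact isCompact_uIcc).intervalIntegrable)).norm
    have h1 := integral_sub_le hR.le hRa hi fun x => norm_nonneg _
    linarith only [h1, hm.near, hη1, hCη, hη0, hδ2, hσ]
  · rw [uIcc_of_le (by linarith only [hR]), uIcc_of_le (by linarith only [ha])]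
    exact hsub
  · have h1 := integral_sub_le hR.le hRa hm.d2i fun x => hs_nonneg _
    have h2 : 1 / 2 * D2 ≤ γ * D2 := mul_le_mul_of_nonneg_right hγ.le hD0
    linarith only [h1, h2, hkl, hTle, hopt, hη1, hδ2]
  · have h1 := hP4 N a K F (fun x => regQ ε (psiM f x * r) (V x)) ha hm.Kp.posSemidef hKn hm.der
      hQc.continuousOn (fun x _ => hQp x) hm.left hm.right hm.sand s R hs0 hs1 hR.le hRa
    rw [e1, e2, ← hβd, ← hc2, ← hTd, ← hPQ] at h1
    have h2 : C * I + C * η - T ≤ 2 * δ := by linarith only [hkl, hγD, hopt, hη1]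
    have h3 := mul_le_mul_of_nonneg_left h2 hβ.le
    have h4 : c2 * PQ - β * T ≤ β * (2 * δ) := by linarith only [hc2Q, h3]
    have h5 := mul_le_mul_of_nonneg_left h4 hC4.le
    have h6 := mul_le_mul_of_nonneg_left hs2 hs0.le
    refine le_of_mul_le_mul_left ?_ hs0
    nlinarith only [h1, h5, h6, hδ4]

end Vale.Agent.P371ED
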