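import Vale.Agent.P371ED.Tint

/-!
Part II with the deficit of the Gibbs and Golden-Thompson step.
-/

namespace Vale.Agent.P371ED

open Matrix Filter Topology Set MeasureTheory
open Vale.Agent.P371 Vale.Agent.P371.GII
open scoped ComplexOrder MatrixOrder Matrix.Norms.L2Operator

theorem intInt_param {f : ℝ → ℝ → ℝ} {a b δ Λ : ℝ} (hab : a ≤ b) (hΛ : δ ≤ Λ)
    (hf : ContinuousOn (fun p : ℝ × ℝ => f p.1 p.2) (Icc a b ×ˢ Icc δ Λ)) :
    IntervalIntegrable (fun x => ∫ t in δ..Λ, f x t) volume a b := by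
  rw [intervalIntegrable_iff, uIoc_of_le hab]
  have h1 := hf.integrableOn_compact (μ := volume) (isCompact_Icc.prod isCompact_Icc)
  have h2 := h1.mono_set (prod_mono (Ioc_subset_Icc_self (a := a) (b := b))
    (Ioc_subset_Icc_self (a := δ) (b := Λ)))
  rw [IntegrableOn, Measure.volume_eq_prod, ← Measure.prod_restrict] at h2
  have h3 := h2.integral_prod_left
  simp only [intervalIntegral.integral_of_le hΛ]
  exact h3

/-- Part II with deficit, from (J2) and the boundary estimates (J3). -/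
theorem partII_core_dfc {N : ℕ} {ν : ℝ} (hν : 0 < ν) (hν1 : ν < 1) {a : ℝ} (ha : 0 < a)
    {K : Matrix (Fin N) (Fin N) ℂ} (hK : K.PosSemidef) {F Q : ℝ → Matrix (Fin N) (Fin N) ℂ}
    (hF : ∀ x ∈ Icc (-a) a, HasDerivWithinAt F (K * K - F x * F x - Q x) (Icc (-a) a) x)
    (hQc : ContinuousOn Q (Icc (-a) a)) (hQ : ∀ x ∈ Icc (-a) a, (Q x).PosSemidef)
    (h1 : F (-a) = K) (h2 : F a = -K)
    (h3 : ∀ x ∈ Icc (-a) a, (K - F x).PosSemidef ∧ (K + F x).PosSemidef)
    (hJ2 : ∀ x ∈ Icc (-a) a, J2 K (F x))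
    (hJ3b : ∀ x ∈ Icc (-a) a, ∀ t, 0 < t → 0 ≤ Phi K (F x) t)
    {C : ℝ} (hJ3c : ∀ x ∈ Icc (-a) a, ∀ t, 0 < t → t ≤ 1 →
      Phi K (F x) t ≤ C * (1 + |Real.log t|)) :
    (∫ f in (-1:ℝ)..1, (1 - f ^ 2) ^ ν) * trPow (2 * ν + 1) K
      + ((1 + ν) / (ν * ScalarInt.kc (fun r => Real.log (1 + r)) ν)) *
        ∫ x in (-a)..a, ∫ t in (1:ℝ)..2,
          t ^ (ν - 1) * dfc K (F x) (((ν / (1 + ν) : ℝ) : ℂ) • Q x) t
      ≤ (1 / ν) * (ν / (1 + ν)) ^ (1 + ν) * ∫ x in (-a)..a, trPow (1 + ν) (Q x) := by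
  have hKh := hK.isHermitian
  have haa : -a ≤ a := by linarith
  have hFc : ContinuousOn F (Icc (-a) a) := fun x hx => (hF x hx).continuousWithinAt
  set θ : ℝ := ν / (1 + ν) with hθdef
  have hθ : 0 < θ := by positivity
  set kc := ScalarInt.kc (fun r => Real.log (1 + r)) ν with hkc
  have hkcpos : 0 < kc := ScalarInt.log_kc_pos hν hν1
  set T : ℝ := ∫ x in (-a)..a, trf (fun q => q ^ (1 + ν)) (Q x) with hT
  -- sums
  set S : ℕ → ℝ := fun m => ∑ i, ∫ t in (1 / ((m:ℝ) + 1))..((m:ℝ) + 1), t ^ (ν - 1) *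
    ∫ y in (-(hKh.eigenvalues i))..(hKh.eigenvalues i),
      Real.log (1 + ((hKh.eigenvalues i) ^ 2 - y ^ 2) / t) with hS
  have hSlim : Tendsto S atTop (𝓝 (∑ i, kc * ((∫ x in (-1:ℝ)..1, (1 - x ^ 2) ^ ν) *
      (hKh.eigenvalues i) ^ (2 * ν + 1)))) := by
    apply tendsto_finsetSum
    intro i _
    exact ScalarInt.ker_soliton_tendsto (ScalarInt.log_kernel hν hν1) hν (hK.eigenvalues_nonneg i)
  set f3 : ℝ → ℝ → ℝ := fun x t => t ^ (ν - 1) * dfc K (F x) ((θ : ℂ) • Q x) t with hf3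
  set Dd : ℝ := ∫ x in (-a)..a, ∫ t in (1:ℝ)..2, f3 x t with hDd
  have c3 : ContinuousOn (fun p : ℝ × ℝ => f3 p.1 p.2) (Icc (-a) a ×ˢ Ioi (0:ℝ)) :=
    ((continuousOn_rpow_Ioi (ν - 1)).comp continuousOn_snd fun p hp => hp.2).mul
      (continuousOn_dfc hKh hFc hQc hQ h3 hθ.le)
  have j3 : IntervalIntegrable (fun x => ∫ t in (1:ℝ)..2, f3 x t) volume (-a) a :=
    intInt_param haa one_le_two (c3.mono (prod_mono le_rfl fun t ht => lt_of_lt_of_le one_pos ht.1))
  -- main inequality for each m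
  have key : ∀ m : ℕ, 1 ≤ m → S m + ((1 + ν) / ν) * Dd ≤ ((1 + ν) / ν) * (kc * (θ ^ (ν + 1) / (ν + 1)) * T)
      + (a - -a) * ((1 / ν) * ((1 / ((m:ℝ) + 1)) ^ ν * (C * (1 + |Real.log (1 / ((m:ℝ) + 1))|)))) := by
    intro m hm1
    have hm1' : (1:ℝ) ≤ m := by exact_mod_cast hm1
    set δ : ℝ := 1 / ((m:ℝ) + 1) with hδdef
    set Λ : ℝ := (m:ℝ) + 1 with hΛdef
    have hm0 : (0:ℝ) ≤ m := Nat.cast_nonneg m
    have hδ : 0 < δ := by (clear * -; positivity)
    have hδ1 : δ ≤ 1 := by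
      rw [hδdef, div_le_one (by (clear * -; positivity))]
      linarith
    have hΛ0 : 0 < Λ := by (clear * -; positivity)
    have hΛ : δ ≤ Λ := ScalarInt.inv_nat_le m
    have hΛ2 : 2 ≤ Λ := by rw [hΛdef]; linarith only [hm1']
    set ε : ℝ := (1 / ν) * (δ ^ ν * (C * (1 + |Real.log δ|))) with hε
    -- continuity
    have hsub : Icc (-a) a ×ˢ Icc δ Λ ⊆ Icc (-a) a ×ˢ Ioi (0:ℝ) :=
      prod_mono le_rfl fun t ht => lt_of_lt_of_le hδ ht.1
    have c1 := (continuousOn_term1 (ν := ν) hKh hFc hQc h3).mono hsub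
    have c2 := (continuousOn_term2 (ν := ν) hQc hQ hθ.le).mono hsub
    set f1 : ℝ → ℝ → ℝ := fun x t => t ^ (ν - 1) *
      (GII.lt K (F x) t * (K * K - F x * F x - Q x)).trace.re with hf1
    set f2 : ℝ → ℝ → ℝ := fun x t => t ^ (ν - 1) * GG t ((θ : ℂ) • Q x) with hf2
    have hEE : ∀ x t, EE ν K (F x) (Q x) t = f1 x t + ((1 + ν) / ν) * f2 x t := by
      intro x t
      simp only [EE, hf1, hf2, hθdef]
      ring
    have cx1 : ∀ x ∈ Icc (-a) a, ContinuousOn (f1 x) (Icc δ Λ) := fun x hx =>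
      c1.comp (f := fun t : ℝ => (x, t)) (by fun_prop) fun t ht => ⟨hx, ht⟩
    have cx2 : ∀ x ∈ Icc (-a) a, ContinuousOn (f2 x) (Icc δ Λ) := fun x hx =>
      c2.comp (f := fun t : ℝ => (x, t)) (by fun_prop) fun t ht => ⟨hx, ht⟩
    have i1 : ∀ x ∈ Icc (-a) a, IntervalIntegrable (f1 x) volume δ Λ := fun x hx => by
      apply ContinuousOn.intervalIntegrable
      rw [uIcc_of_le hΛ]
      exact cx1 x hx
    have i2 : ∀ x ∈ Icc (-a) a, IntervalIntegrable (f2 x) volume δ Λ := fun x hx => by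
      apply ContinuousOn.intervalIntegrable
      rw [uIcc_of_le hΛ]
      exact cx2 x hx
    -- integrability in x of the t-integrals
    have j1 := intInt_param (f := f1) haa hΛ c1
    have j2 := intInt_param (f := f2) haa hΛ c2
    -- lower bound for each x
    have hx_low : ∀ x ∈ Icc (-a) a, -ε + ((1 + ν) / ν) * (∫ t in (1:ℝ)..2, f3 x t) ≤ (∫ t in δ..Λ, f1 x t)
        + ((1 + ν) / ν) * ∫ t in δ..Λ, f2 x t := by
      intro x hx
      have hc : ContinuousOn (EE ν K (F x) (Q x)) (Icc δ Λ) := by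
        have : EE ν K (F x) (Q x) = fun t => f1 x t + ((1 + ν) / ν) * f2 x t := by
          funext t
          exact hEE x t
        rw [this]
        exact (cx1 x hx).add (continuousOn_const.mul (cx2 x hx))
      have h := integral_t_ge_dfc hKh hν (h3 x hx).1 (h3 x hx).2 (hQ x hx) (hJ2 x hx) hδ hΛ hc
      have e : ∫ t in δ..Λ, EE ν K (F x) (Q x) t = (∫ t in δ..Λ, f1 x t)
          + ((1 + ν) / ν) * ∫ t in δ..Λ, f2 x t := by
        simp only [hEE]
        rw [intervalIntegral.integral_add (i1 x hx) ((i2 x hx).const_mul _),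
          intervalIntegral.integral_const_mul]
      rw [e] at h
      refine le_trans ?_ h
      have b1 : 0 ≤ (1 / ν) * (Λ ^ ν * Phi K (F x) Λ) :=
        mul_nonneg (by positivity) (mul_nonneg (Real.rpow_nonneg hΛ0.le _) (hJ3b x hx Λ hΛ0))
      have b2 : (1 / ν) * (δ ^ ν * Phi K (F x) δ) ≤ ε := by
        rw [hε]
        apply mul_le_mul_of_nonneg_left _ (by positivity)
        exact mul_le_mul_of_nonneg_left (hJ3c x hx δ hδ hδ1) (Real.rpow_nonneg hδ.le _)
      have b3 : ∫ t in (1:ℝ)..2, f3 x t ≤ ∫ t in δ..Λ, f3 x t := by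
        apply intervalIntegral.integral_mono_interval hδ1 one_le_two hΛ2
        · rw [Filter.EventuallyLE, ae_restrict_iff' measurableSet_Ioc]
          refine Eventually.of_forall fun t ht => ?_
          have ht0 : 0 < t := lt_trans hδ ht.1
          exact mul_nonneg (Real.rpow_nonneg ht0.le _)
            (dfc_nonneg hKh ht0 (h3 x hx).1 (h3 x hx).2 (posSemidef_smul (hQ x hx) hθ.le))
        · apply ContinuousOn.intervalIntegrable
          rw [uIcc_of_le hΛ]
          exact c3.comp (f := fun t : ℝ => (x, t)) (by fun_prop)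
            fun t ht => ⟨hx, lt_of_lt_of_le hδ ht.1⟩
      have b4 := mul_le_mul_of_nonneg_left b3 (show 0 ≤ (1 + ν) / ν by positivity)
      linarith only [b1, b2, b4]
    -- integrate over x
    have hint_low : (a - -a) * (-ε) + ((1 + ν) / ν) * Dd ≤ (∫ x in (-a)..a, ∫ t in δ..Λ, f1 x t)
        + ((1 + ν) / ν) * ∫ x in (-a)..a, ∫ t in δ..Λ, f2 x t := by
      have : ∫ _ in (-a)..a, (-ε) = (a - -a) * (-ε) := by
        rw [intervalIntegral.integral_const, smul_eq_mul]
      rw [← this, hDd, ← intervalIntegral.integral_const_mul,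
        ← intervalIntegral.integral_const_mul, ← intervalIntegral.integral_add j1 (j2.const_mul _),
        ← intervalIntegral.integral_add intervalIntegrable_const (j3.const_mul _)]
      exact intervalIntegral.integral_mono_on haa (intervalIntegrable_const.add (j3.const_mul _))
        (j1.add (j2.const_mul _)) hx_low
    -- first term
    have ht1 : ∫ x in (-a)..a, ∫ t in δ..Λ, f1 x t = -S m := by
      rw [ScalarInt.swap_of_continuousOn haa hΛ c1]
      have e1 : ∀ t ∈ Icc δ Λ, ∫ x in (-a)..a, f1 x t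
          = -∑ i, t ^ (ν - 1) * ∫ y in (-(hKh.eigenvalues i))..(hKh.eigenvalues i),
              Real.log (1 + ((hKh.eigenvalues i) ^ 2 - y ^ 2) / t) := by
        intro t ht
        have ht0 : 0 < t := lt_of_lt_of_le hδ ht.1
        simp only [hf1]
        rw [intervalIntegral.integral_const_mul, integral_x_eq hKh ha ht0 hF hQc h3, h1, h2,
          pot_boundary hK ht0, mul_neg, Finset.mul_sum]
      have e2 : ∫ t in δ..Λ, ∫ x in (-a)..a, f1 x t
          = ∫ t in δ..Λ, -∑ i, t ^ (ν - 1) *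
            ∫ y in (-(hKh.eigenvalues i))..(hKh.eigenvalues i),
              Real.log (1 + ((hKh.eigenvalues i) ^ 2 - y ^ 2) / t) := by
        apply intervalIntegral.integral_congr
        intro t ht
        rw [uIcc_of_le hΛ] at ht
        exact e1 t ht
      rw [e2, intervalIntegral.integral_neg, intervalIntegral.integral_finsetSum]
      intro i _
      apply ContinuousOn.intervalIntegrable
      rw [uIcc_of_le hΛ]
      have hk := hK.eigenvalues_nonneg i
      have hne : ∀ t ∈ Icc δ Λ, t ≠ 0 := fun t ht => (lt_of_lt_of_le hδ ht.1).ne'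
      have c : ContinuousOn (fun t : ℝ => t ^ (ν - 1) *
          (2 * (ScalarInt.phi0 (√((hKh.eigenvalues i) ^ 2 + t) + hKh.eigenvalues i)
            - ScalarInt.phi0 (√((hKh.eigenvalues i) ^ 2 + t) - hKh.eigenvalues i)
            - hKh.eigenvalues i * Real.log t))) (Icc δ Λ) := by
        apply ContinuousOn.mul
        · exact ContinuousOn.rpow_const continuousOn_id fun t ht => Or.inl (hne t ht)
        · apply continuousOn_const.mul
          have hphi : Continuous ScalarInt.phi0 := by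
            unfold ScalarInt.phi0
            exact Real.continuous_mul_log.sub continuous_id
          apply ContinuousOn.sub
          · exact ((hphi.comp (by fun_prop)).sub (hphi.comp (by fun_prop))).continuousOn
          · exact continuousOn_const.mul (continuousOn_id.log hne)
      refine c.congr fun t ht => ?_
      have ht0 : 0 < t := lt_of_lt_of_le hδ ht.1
      simp only
      rw [ScalarInt.integral_log_soliton hk ht0 (Real.sqrt_nonneg _)
        (Real.sq_sqrt (by (clear * - hK ht0; positivity)))]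
    -- second term
    have ht2 : ∫ x in (-a)..a, ∫ t in δ..Λ, f2 x t ≤ kc * (θ ^ (ν + 1) / (ν + 1)) * T := by
      rw [hT, ← intervalIntegral.integral_const_mul]
      apply intervalIntegral.integral_mono_on haa j2
      · apply IntervalIntegrable.const_mul
        apply ContinuousOn.intervalIntegrable
        rw [uIcc_of_le haa]
        exact continuousOn_trf_rpow hQc hQ (by positivity)
      · intro x hx
        exact integral_GG_le (hQ x hx) hν hν1 hθ.le hδ hΛ
    have hpos : 0 < (1 + ν) / ν := by positivity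
    have := mul_le_mul_of_nonneg_left ht2 hpos.le
    rw [ht1] at hint_low
    linarith only [hint_low, this]
  have hlim2 : Tendsto (fun m : ℕ => ((1 + ν) / ν) * (kc * (θ ^ (ν + 1) / (ν + 1)) * T)
      + (a - -a) * ((1 / ν) * ((1 / ((m:ℝ) + 1)) ^ ν * (C * (1 + |Real.log (1 / ((m:ℝ) + 1))|)))))
      atTop (𝓝 (((1 + ν) / ν) * (kc * (θ ^ (ν + 1) / (ν + 1)) * T) + (a - -a) * ((1 / ν) * 0))) :=
    tendsto_const_nhds.add (((tendsto_boundary hν C).const_mul _).const_mul _)
  have hfin := le_of_tendsto_of_tendsto (hSlim.add_const (((1 + ν) / ν) * Dd)) hlim2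
    (eventually_atTop.2 ⟨1, key⟩)
  have e1 : trPow (2 * ν + 1) K = ∑ i, (hKh.eigenvalues i) ^ (2 * ν + 1) := by
    rw [trPow, dif_pos hKh]
  have e2 : ∫ x in (-a)..a, trPow (1 + ν) (Q x) = T := by
    apply intervalIntegral.integral_congr
    intro x hx
    rw [uIcc_of_le haa] at hx
    exact Vale.Agent.P371.G.trPow_eq_cfc (hQ x hx).isHermitian _
  rw [e1, e2]
  rw [← Finset.mul_sum, ← Finset.mul_sum, mul_zero, mul_zero, add_zero] at hfin
  have h5 : ((1 + ν) / ν) * (kc * (θ ^ (ν + 1) / (ν + 1)) * T)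
      = kc * ((1 / ν) * θ ^ (1 + ν) * T) := by
    rw [add_comm 1 ν]
    (clear * - hν hθ hkcpos; field_simp)
  rw [h5] at hfin
  have h6 : ((1 + ν) / ν) * Dd = kc * ((1 + ν) / (ν * kc) * Dd) := by
    (clear * - hν hkcpos; field_simp)
  rw [h6, ← mul_add] at hfin
  exact le_of_mul_le_mul_left hfin hkcpos

end Vale.Agent.P371ED
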