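import Vale.Agent.P371E.Spec

/-!
Klein's inequality with quadratic remainder, `1 < γ ≤ 2`.
-/

namespace Vale.Agent.P371ED

open MeasureTheory Filter Topology Matrix Set
open Vale.Agent.P371 Vale.Agent.P371.G Vale.Agent.P371.PI Vale.Agent.P371E
open scoped ComplexOrder MatrixOrder Matrix.Norms.L2Operator

theorem deriv_mono {γ M u v : ℝ} (h1 : 1 < γ) (h2 : γ ≤ 2) (hu : 0 < u) (huv : u ≤ v)
    (hv : v ≤ M) :
    γ * u ^ (γ - 1) - 2 * (γ * (γ - 1) * M ^ (γ - 2) / 2) * u
      ≤ γ * v ^ (γ - 1) - 2 * (γ * (γ - 1) * M ^ (γ - 2) / 2) * v := by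
  have hv0 : 0 < v := lt_of_lt_of_le hu huv
  have h3 := scalar_klein' (γ := γ - 1) (x := u) (y := v) (by linarith only [h1])
    (by linarith only [h2]) hu.le hv0
  have e : γ - 1 - 1 = γ - 2 := by ring
  rw [e] at h3
  have h4 : M ^ (γ - 2) ≤ v ^ (γ - 2) := Real.rpow_le_rpow_of_nonpos hv0 hv (by linarith only [h2])
  have h5 : (γ - 1) * M ^ (γ - 2) * (v - u) ≤ (γ - 1) * v ^ (γ - 2) * (v - u) :=
    mul_le_mul_of_nonneg_right (mul_le_mul_of_nonneg_left h4 (by linarith only [h1]))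
      (by linarith only [huv])
  have h6 : (γ - 1) * M ^ (γ - 2) * (v - u) ≤ v ^ (γ - 1) - u ^ (γ - 1) := by
    linarith only [h3, h5]
  have h7 := mul_le_mul_of_nonneg_left h6 (show 0 ≤ γ by linarith only [h1])
  linarith only [h7]

theorem scalar_klein_sq {γ M x y : ℝ} (h1 : 1 < γ) (h2 : γ ≤ 2) (hx : 0 ≤ x) (hxM : x ≤ M)
    (hy : 0 < y) (hyM : y ≤ M) :
    (γ * (γ - 1) * M ^ (γ - 2) / 2) * (x - y) ^ 2 ≤ x ^ γ - y ^ γ - γ * y ^ (γ - 1) * (x - y) := by
  set c : ℝ := γ * (γ - 1) * M ^ (γ - 2) / 2 with hc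
  have hd : ∀ z : ℝ, HasDerivAt (fun z : ℝ => z ^ γ - c * z ^ 2) (γ * z ^ (γ - 1) - 2 * c * z) z := by
    intro z
    have h3 := (Real.hasDerivAt_rpow_const (x := z) (p := γ) (Or.inr h1.le)).sub
      ((hasDerivAt_pow 2 z).const_mul c)
    refine h3.congr_deriv ?_
    push_cast
    ring
  have hcont : ∀ s : Set ℝ, ContinuousOn (fun z : ℝ => z ^ γ - c * z ^ 2) s :=
    fun s z _ => (hd z).continuousAt.continuousWithinAt
  have key : y ^ γ - c * y ^ 2 + (γ * y ^ (γ - 1) - 2 * c * y) * (x - y) ≤ x ^ γ - c * x ^ 2 := by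
    rcases lt_trichotomy x y with h | h | h
    · obtain ⟨ξ, hξ, he⟩ := exists_hasDerivAt_eq_slope (fun z : ℝ => z ^ γ - c * z ^ 2)
        (fun z => γ * z ^ (γ - 1) - 2 * c * z) h (hcont _) fun z _ => hd z
      have h4 := deriv_mono h1 h2 (lt_of_le_of_lt hx hξ.1) hξ.2.le hyM
      rw [← hc] at h4
      rw [eq_div_iff (by linarith only [h])] at he
      have h5 := mul_le_mul_of_nonneg_right h4 (show 0 ≤ y - x by linarith only [h])
      linarith only [he, h5]
    · rw [h]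
      linarith only []
    · obtain ⟨ξ, hξ, he⟩ := exists_hasDerivAt_eq_slope (fun z : ℝ => z ^ γ - c * z ^ 2)
        (fun z => γ * z ^ (γ - 1) - 2 * c * z) h (hcont _) fun z _ => hd z
      have h4 := deriv_mono h1 h2 hy hξ.1.le (hξ.2.le.trans hxM)
      rw [← hc] at h4
      rw [eq_div_iff (by linarith only [h])] at he
      have h5 := mul_le_mul_of_nonneg_right h4 (show 0 ≤ x - y by linarith only [h])
      linarith only [he, h5]
  linarith only [key]

theorem klein_ge_sq {n : ℕ} {γ M : ℝ} (h1 : 1 < γ) (h2 : γ ≤ 2) {E L : Mat n n}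
    (hE : E.PosSemidef) (hL : L.PosDef) (hEM : ∀ i, hE.isHermitian.eigenvalues i ≤ M)
    (hLM : ∀ i, hL.isHermitian.eigenvalues i ≤ M) :
    trPow γ L + γ * (cfc (fun x : ℝ => x ^ (γ - 1)) L * (E - L)).trace.re
      + (γ * (γ - 1) * M ^ (γ - 2) / 2) * hs (E - L) ≤ trPow γ E := by
  have hEh := hE.isHermitian
  have hLh := hL.isHermitian
  set c : ℝ := γ * (γ - 1) * M ^ (γ - 2) / 2 with hc
  have key := klein_nonneg hEh hLh (Finset.univ : Finset (Fin 7))
    ![fun x => x ^ γ, fun _ => -1, fun x => (-γ) * x, fun _ => γ, fun x => (-c) * (x * x),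
      fun _ => -c, fun x => (2 * c) * x]
    ![fun _ => 1, fun y => y ^ γ, fun y => y ^ (γ - 1), fun y => y ^ γ, fun _ => 1,
      fun y => y * y, fun y => y]
    (by
      intro i j
      have h3 := scalar_klein_sq h1 h2 (hE.eigenvalues_nonneg i) (hEM i) (hL.eigenvalues_pos j)
        (hLM j)
      rw [← hc] at h3
      have h4 : hLh.eigenvalues j ^ (γ - 1) * hLh.eigenvalues j = hLh.eigenvalues j ^ γ := by
        rw [Real.rpow_sub_one (hL.eigenvalues_pos j).ne',
          div_mul_cancel₀ _ (hL.eigenvalues_pos j).ne']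
      simp only [Fin.sum_univ_seven, Matrix.cons_val]
      have h5 : γ * hLh.eigenvalues j ^ (γ - 1) * (hEh.eigenvalues i - hLh.eigenvalues j)
          = γ * hEh.eigenvalues i * hLh.eigenvalues j ^ (γ - 1) - γ * hLh.eigenvalues j ^ γ := by
        rw [← h4]
        ring
      rw [h5] at h3
      linarith only [h3])
  simp only [Fin.sum_univ_seven, Matrix.cons_val] at key
  have ec : ∀ r : ℝ, cfc (fun _ : ℝ => r) E = r • (1 : Mat n n) := by
    intro r
    have := cfc_const r E (ha := hEh)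
    rw [this, Algebra.algebraMap_eq_smul_one]
  have em : ∀ r : ℝ, cfc (fun x : ℝ => r * x) E = r • E := fun r =>
    cfc_const_mul_id r E (ha := hEh)
  have eq2 : cfc (fun x : ℝ => (-c) * (x * x)) E = (-c) • (E * E) := by
    rw [cfc_const_mul (-c) (fun x : ℝ => x * x) E (contOn_spectrum E _), ← mul_self_eq_cfc hEh]
  rw [ec (-1), em (-γ), ec γ, eq2, ec (-c), em (2 * c), cfc_one_eq hLh, cfc_id_eq hLh,
    ← mul_self_eq_cfc hLh] at key
  rw [trPow_eq_trace hEh, trPow_eq_trace hLh]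
  have e4 := cfc_mul_pow (γ := γ) hL
  have e5 : (cfc (fun x : ℝ => x ^ (γ - 1)) L * (E - L)).trace.re =
      (E * cfc (fun x : ℝ => x ^ (γ - 1)) L).trace.re - (cfc (fun x : ℝ => x ^ γ) L).trace.re := by
    rw [mul_sub, e4, Matrix.trace_sub, Complex.sub_re, Matrix.trace_mul_comm]
  have e6 : hs (E - L) = (E * E).trace.re + (L * L).trace.re - 2 * (E * L).trace.re := by
    rw [hs, (hEh.sub hLh).eq, Matrix.sub_mul, Matrix.mul_sub, Matrix.mul_sub, Matrix.trace_sub,
      Matrix.trace_sub, Matrix.trace_sub, Matrix.trace_mul_comm L E, Complex.sub_re,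
      Complex.sub_re, Complex.sub_re]
    ring
  rw [e5, e6]
  simp only [mul_one, one_mul, Matrix.smul_mul, Matrix.trace_smul, Complex.real_smul,
    Complex.re_ofReal_mul] at key
  linarith only [key]

end Vale.Agent.P371ED
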