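import Vale.Agent.P371ED.Approx
import Vale.Agent.P371ED.Klein

/-!
The approximant with the deficits of the test inequality and of Klein's inequality.
-/

namespace Vale.Agent.P371ED

open MeasureTheory Filter Topology Matrix Set
open Vale.Agent.P371 Vale.Agent.P371.G Vale.Agent.P371.PI Vale.Agent.P371E
open scoped ComplexOrder MatrixOrder Matrix.Norms.L2Operator

variable {N m : ℕ}

theorem dg_isHermitian (d : Fin N → ℝ) : (dg d).IsHermitian := by
  rw [dg, IsHermitian, diagonal_conjTranspose]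
  congr 1
  funext i
  simp

theorem dg_mul (d e : Fin N → ℝ) : dg d * dg e = dg fun j => d j * e j := by
  rw [dg, dg, dg, diagonal_mul_diagonal]
  congr 1
  funext i
  push_cast
  rfl

theorem cfc_dg (d : Fin N → ℝ) (g : ℝ → ℝ) : cfc g (dg d) = dg fun j => g (d j) := by
  have h : ∀ (e : Fin N → ℝ) (j : Fin N), dg e *ᵥ (Pi.single j (1 : ℂ)) =
      e j • (Pi.single j (1 : ℂ) : Fin N → ℂ) := by
    intro e j
    funext i
    rw [dg, mulVec_diagonal, Pi.smul_apply]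
    by_cases hij : i = j
    · subst hij
      simp
    · simp [hij]
  ext i j
  have h1 := congrFun (cfc_mulVec (dg_isHermitian d) (h d j) g) i
  have h2 := congrFun (h (fun j => g (d j)) j) i
  rw [mulVec_single_one] at h1 h2
  exact h1.trans h2.symm

theorem rr_eq {lam : Fin N → ℝ} (h : ∀ j, lam j < 0) (γ : ℝ) :
    dg (fun j => (-lam j) ^ ((γ - 1) / 2)) * dg (fun j => (-lam j) ^ ((γ - 1) / 2))
      = cfc (fun x : ℝ => x ^ (γ - 1)) (Lam lam) := by
  rw [dg_mul, Lam, cfc_dg]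
  congr 1
  funext j
  rw [← Real.rpow_add (by linarith only [h j])]
  congr 1
  ring

theorem trace_rho_Lam {lam : Fin N → ℝ} (h : ∀ j, lam j < 0) (γ : ℝ) :
    (cfc (fun x : ℝ => x ^ (γ - 1)) (Lam lam) * Lam lam).trace.re = ∑ j, |lam j| ^ γ := by
  rw [cfc_mul_pow (Lam_posDef h), ← trPow_eq_trace (Lam_posDef h).isHermitian, trPow_Lam h]

theorem hs_nonneg {n k : ℕ} (M : Mat n k) : 0 ≤ hs M :=
  PI.trace_re_nonneg (posSemidef_conjTranspose_mul_self M)

/-- the approximant on `[-a, a]` -/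
structure Mid (γ : ℝ) (W : ℝ → Mat m m) (lam : Fin N → ℝ) (f f' : Fin N → ℝ → Vec m)
    (η a ε : ℝ) (V : ℝ → Mat m m) (K r : Mat N N) (F : ℝ → Mat N N) : Prop where
  apos : 0 < a
  eps : 0 < ε
  Vc : Continuous V
  Vp : ∀ x, (V x).PosSemidef
  Kp : K.PosDef
  der : ∀ t ∈ Icc (-a) a, HasDerivWithinAt F (K * K - F t * F t - regQ ε (psiM f t * r) (V t))
    (Icc (-a) a) t
  sand : ∀ t ∈ Icc (-a) a, (K - F t).PosSemidef ∧ (K + F t).PosSemidef
  left : F (-a) = K
  right : F a = -K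
  near : (∫ x in (-a)..a, ‖V x - W x‖) ≤ η
  pow : (∫ x in (-a)..a, trPow (γ + 1 / 2) (V x)) ≤ II γ W + η
  d2i : IntervalIntegrable (fun x => hs (psiM f' x * r - psiM f x * r * F x)) volume (-a) a
  kl : ∑ j, |lam j| ^ γ + γ * (∫ x in (-a)..a, hs (psiM f' x * r - psiM f x * r * F x))
    ≤ trPow (2 * γ) K + 3 * η
  rdef : (γ ≤ 1 ∧ r = cfc (fun x : ℝ => x ^ (γ - 1)) K ∧
      (r * r * Lam lam).trace.re ≤ 2 * (trPow (2 * γ) K + η)) ∨
    (1 < γ ∧ r = dg (fun j => (-lam j) ^ ((γ - 1) / 2)) ∧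
      (r * r * Lam lam).trace.re = ∑ j, |lam j| ^ γ ∧
      ∀ M : ℝ, (∀ i, (posDef_mul_self Kp).posSemidef.isHermitian.eigenvalues i ≤ M) →
        (∀ h : (Lam lam).PosDef, ∀ i, h.isHermitian.eigenvalues i ≤ M) →
        ∑ j, |lam j| ^ γ + (γ * (γ - 1) * M ^ (γ - 2) / 2) * hs (K * K - Lam lam)
          ≤ trPow (2 * γ) K + 3 * η)

theorem exists_mid (hT : T2D) {γ : ℝ} (hγ : 1 / 2 < γ) (hγ1 : γ < 3 / 2) {W : ℝ → Mat m m}
    (hW : IsPotential (γ + 1 / 2) W) {lam : Fin N → ℝ} {f f' : Fin N → ℝ → Vec m}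
    (hS : Sys W lam f f') (R : ℝ) {η : ℝ} (hη : 0 < η) :
    ∃ a ε V K r F, R + 1 ≤ a ∧ Mid γ W lam f f' η a ε V K r F := by
  have hγ0 : 0 < γ := by linarith only [hγ]
  have hΛ := Lam_posDef hS.neg
  have hf : ∀ j, IsH1 (f j) (f' j) := fun j => (hS.eig j).isH1
  set S : ℝ := ∑ j, |lam j| ^ γ with hSdef
  set ρ : Mat N N := cfc (fun x : ℝ => x ^ (γ - 1)) (Lam lam) with hρ
  have hρΛ : (ρ * Lam lam).trace.re = S := trace_rho_Lam hS.neg γ
  have h0 : Cond γ (S - η) (Lam lam) ρ (Lam lam) := by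
    refine ⟨hΛ, ?_, ?_, ?_⟩
    · rw [add_sub_cancel_right]
      exact hΛ
    · rw [trPow_Lam hS.neg]
      linarith only [hη]
    · rw [hρΛ]
      linarith only [hη]
  obtain ⟨a, d, V, haR, ha, hd, hVc, hV, hnear, hpow, hL, hL2, hL3, hL4⟩ :=
    exists_approx hγ hW hS R hη h0
  have hVp : ∀ x, (V x).PosSemidef := fun x => posSemidef_of_sub hd.le (hV x)
  set J := ∫ x in (-a)..a, (V x).trace.re with hJ
  have hJ0 : 0 ≤ J := intervalIntegral.integral_nonneg (by linarith only [ha]) fun x _ =>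
    PI.trace_re_nonneg (hVp x)
  set ε : ℝ := η / (J + 1) with hε
  have hε0 : 0 < ε := by positivity
  have hεJ : ε * J ≤ η := by
    rw [hε, div_mul_eq_mul_div, div_le_iff₀ (by positivity)]
    nlinarith only [hη]
  have hD0 : ∀ (r : Mat N N) (F : ℝ → Mat N N),
      0 ≤ ∫ x in (-a)..a, hs (psiM f' x * r - psiM f x * r * F x) := fun r F =>
    intervalIntegral.integral_nonneg (by linarith only [ha]) fun x _ => hs_nonneg _
  rcases le_or_gt γ 1 with h1 | h1
  · obtain ⟨K, F, hK, hF, hFh, hsand, hFa, hFb⟩ := core_flip ha hd hε0 hVc hV hf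
      (r := fun K => cfc (fun x : ℝ => x ^ (γ - 1)) K) (continuousOn_cfc_rpow _)
      (fun T hT => low_le h1 ha hd hε0 hVc hV hf hL hT)
    set r : Mat N N := cfc (fun x : ℝ => x ^ (γ - 1)) K with hr
    have hrh : r.IsHermitian := cfc_predicate (R := ℝ) _ _
    obtain ⟨hi, ht⟩ := hT N m K r a ε V F f f' hK.isHermitian hrh ha hε0 hVc hVp hf hS.on hF hFh
      hFa hFb
    have hk := klein_le hγ0.le h1 hL.posSemidef (posDef_mul_self hK)
    rw [← cfc_sq hK, mul_sub, Matrix.trace_sub, Complex.sub_re, trPow_mul_self hK, ← hr] at hk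
    rw [Matrix.trace_mul_comm (K * K), ← hJ] at ht
    have e1 : (r * r * (K * K)).trace.re = trPow (2 * γ) K := by
      rw [hr, cfc_sq hK, cfc_mul_pow (posDef_mul_self hK),
        ← trPow_eq_trace (posDef_mul_self hK).isHermitian, trPow_mul_self hK]
    have e2 : (r * r * Lam lam).trace.re ≤ 2 * (r * r * LamM a V f f').trace.re := by
      have h2 : (r * r).PosSemidef := pos_sq (posDef_cfc hK _).posSemidef
      have h3 := (Complex.le_def.mp (trace_mul_nonneg h2 hL2.posSemidef)).1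
      rw [mul_sub, mul_add, Matrix.trace_sub, Matrix.trace_add, Complex.sub_re, Complex.add_re,
        Complex.zero_re] at h3
      linarith only [h3]
    have hD := hD0 r F
    refine ⟨a, ε, V, K, r, F, haR, ha, hε0, hVc, hVp, hK, hF, hsand, hFa, hFb, hnear, hpow, hi,
      ?_, Or.inl ⟨h1, rfl, ?_⟩⟩
    · have h4 := mul_le_mul_of_nonneg_left ht hγ0.le
      have h5 : γ * (ε * J) ≤ 1 * η := mul_le_mul h1 hεJ (mul_nonneg hε0.le hJ0) zero_le_one
      linarith only [hk, hL3, h4, h5, hη]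
    · linarith only [e1, e2, ht, hD, hεJ]
  · set r : Mat N N := dg (fun j => (-lam j) ^ ((γ - 1) / 2)) with hr
    have hrh : r.IsHermitian := dg_isHermitian _
    have hrr : r * r = ρ := rr_eq hS.neg γ
    have hrrp : (r * r).PosDef := by rw [hrr]; exact posDef_cfc hΛ _
    obtain ⟨d', hd', hlow⟩ := low_ge ha hd hε0 hVc hV hf hL hrh hrrp
    obtain ⟨K, F, hK, hF, hFh, hsand, hFa, hFb⟩ := core_flip ha hd hε0 hVc hV hf
      (r := fun _ => r) continuousOn_const (fun T _ => ⟨d', hd', fun K _ _ k e _ _ => hlow e⟩)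
    obtain ⟨hi, ht⟩ := hT N m K r a ε V F f f' hK.isHermitian hrh ha hε0 hVc hVp hf hS.on hF hFh
      hFa hFb
    rw [Matrix.trace_mul_comm (K * K), ← hJ, hrr] at ht
    have hD := hD0 r F
    have h4 := mul_le_mul_of_nonneg_left ht hγ0.le
    have h5 : γ * (ε * J) ≤ 3 / 2 * η :=
      mul_le_mul hγ1.le hεJ (mul_nonneg hε0.le hJ0) (by norm_num)
    have h6 := mul_le_mul_of_nonneg_left hL4.le hγ0.le
    have h7 : γ * η ≤ 3 / 2 * η := mul_le_mul_of_nonneg_right hγ1.le hη.le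
    refine ⟨a, ε, V, K, r, F, haR, ha, hε0, hVc, hVp, hK, hF, hsand, hFa, hFb, hnear, hpow, hi,
      ?_, Or.inr ⟨h1, rfl, by rw [hrr, hρΛ], fun M hM1 hM2 => ?_⟩⟩
    · have hk := klein_ge h1.le (posDef_mul_self hK).posSemidef hΛ
      rw [← hρ, mul_sub, Matrix.trace_sub, Complex.sub_re, trPow_mul_self hK, hρΛ,
        trPow_Lam hS.neg] at hk
      linarith only [hk, h4, h5, h6, h7]
    · have hk := klein_ge_sq h1 (by linarith only [hγ1]) (posDef_mul_self hK).posSemidef hΛ hM1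
        (hM2 hΛ)
      rw [← hρ, mul_sub, Matrix.trace_sub, Complex.sub_re, trPow_mul_self hK, hρΛ,
        trPow_Lam hS.neg] at hk
      have h8 := mul_nonneg hγ0.le hD
      linarith only [hk, h4, h5, h6, h7, h8]

end Vale.Agent.P371ED
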