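import Vale.Agent.P371.Bdl.B2

/-!
The test inequality, keeping the square.
-/

namespace Vale.Agent.P371ED

open MeasureTheory Filter Topology Set Matrix
open Vale.Agent.P371 Vale.Agent.P371.G
open scoped Matrix.Norms.L2Operator ComplexOrder

variable {N : ℕ} {u u' : ℝ → EuclideanSpace ℂ (Fin N)}

/-- The test identity on `[a, b]`. -/
theorem test_interval_eq (hu : IsH1 u u') {a b : ℝ} (hab : a ≤ b)
    {K : Matrix (Fin N) (Fin N) ℂ} (hK : K.IsHermitian) {F Q : ℝ → Matrix (Fin N) (Fin N) ℂ}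
    (hQ : ContinuousOn Q (Icc a b))
    (hF : ∀ t ∈ Icc a b, HasDerivWithinAt F (K * K - F t * F t - Q t) (Icc a b) t)
    (hFh : ∀ t ∈ Icc a b, (F t).IsHermitian) :
    IntervalIntegrable (fun x => ‖u' x - Matrix.toEuclideanLin (F x) (u x)‖ ^ 2) volume a b ∧
    (inner ℂ (u b) (Matrix.toEuclideanLin (F b) (u b)) : ℂ).re
        - (inner ℂ (u a) (Matrix.toEuclideanLin (F a) (u a)) : ℂ).re =
      ∫ x in a..b, (‖u' x‖ ^ 2 + ‖Matrix.toEuclideanLin K (u x)‖ ^ 2
        - ((inner ℂ (u x) (Matrix.toEuclideanLin (Q x) (u x)) : ℂ).re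
          + ‖u' x - Matrix.toEuclideanLin (F x) (u x)‖ ^ 2)) := by
  have hcF : ContinuousOn F (Icc a b) := fun t ht => (hF t ht).continuousWithinAt
  have hF'c : ContinuousOn (fun t => K * K - F t * F t - Q t) (Icc a b) :=
    (continuousOn_const.sub (hcF.mul hcF)).sub hQ
  have hftc := formF_ftc hu hab hF hF'c hFh
  have hcu : ContinuousOn u (Icc a b) := hu.continuous_self.continuousOn
  -- continuity of `x ↦ A x (u x)`
  have hcA : ∀ A : ℝ → Matrix (Fin N) (Fin N) ℂ, ContinuousOn A (Icc a b) →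
      ContinuousOn (fun x => Matrix.toEuclideanLin (A x) (u x)) (Icc a b) := by
    intro A hA
    have h1 : ContinuousOn (fun x => TR N (A x)) (Icc a b) :=
      ((TR N).continuous.comp_continuousOn hA :)
    exact ContinuousOn.clm_apply h1 hcu
  have hi1 : IntervalIntegrable (fun x => ‖u' x‖ ^ 2) volume a b :=
    (integrable_norm_sq hu.memLp_deriv).intervalIntegrable
  have hic : ∀ f : ℝ → ℝ, ContinuousOn f (Icc a b) → IntervalIntegrable f volume a b := by
    intro f hf
    refine ContinuousOn.intervalIntegrable ?_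
    rwa [uIcc_of_le hab]
  have hi2 : IntervalIntegrable (fun x => ‖Matrix.toEuclideanLin K (u x)‖ ^ 2) volume a b :=
    hic _ ((hcA (fun _ => K) continuousOn_const).norm.pow 2)
  have hi3 : IntervalIntegrable (fun x => ‖Matrix.toEuclideanLin (F x) (u x)‖ ^ 2) volume a b :=
    hic _ ((hcA F hcF).norm.pow 2)
  have hinn : ∀ A : ℝ → Matrix (Fin N) (Fin N) ℂ, ContinuousOn A (Icc a b) →
      IntervalIntegrable (fun x => (inner ℂ (u x) (Matrix.toEuclideanLin (A x) (u x)) : ℂ).re)
        volume a b := by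
    intro A hA
    refine hic _ ?_
    have h1 : ContinuousOn (fun x => (inner ℂ (u x) (Matrix.toEuclideanLin (A x) (u x)) : ℂ))
        (Icc a b) := ContinuousOn.inner (𝕜 := ℂ) hcu (hcA A hA)
    exact (Complex.continuous_re.comp_continuousOn h1 :)
  have hi4 : IntervalIntegrable
      (fun x => 2 * (inner ℂ (u' x) (Matrix.toEuclideanLin (F x) (u x)) : ℂ).re) volume a b := by
    refine IntervalIntegrable.const_mul ?_ 2
    obtain ⟨M, hM⟩ := isCompact_Icc.exists_bound_of_continuousOn (hcA F hcF)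
    have hms : AEStronglyMeasurable (fun x => Matrix.toEuclideanLin (F x) (u x))
        (volume.restrict (Ioc a b)) :=
      ((hcA F hcF).mono Ioc_subset_Icc_self).aestronglyMeasurable measurableSet_Ioc
    rw [intervalIntegrable_iff_integrableOn_Ioc_of_le hab]
    have hu'i : IntegrableOn (fun x => ‖u' x‖ * M) (Ioc a b) volume :=
      ((intervalIntegrable_iff_integrableOn_Ioc_of_le hab).1
        (hu.intervalIntegrable_deriv a b).norm).mul_const M
    refine Integrable.mono' hu'i ?_ ?_
    · exact Complex.continuous_re.comp_aestronglyMeasurable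
        (hu.memLp_deriv.aestronglyMeasurable.restrict.inner hms)
    · refine (ae_restrict_iff' measurableSet_Ioc).2 (Eventually.of_forall fun x hx => ?_)
      rw [Real.norm_eq_abs]
      refine (Complex.abs_re_le_norm _).trans ((norm_inner_le_norm _ _).trans ?_)
      exact mul_le_mul_of_nonneg_left (hM x (Ioc_subset_Icc_self hx)) (norm_nonneg _)
  have hi5 := hinn (fun t => K * K - F t * F t - Q t) hF'c
  have hi6 := hinn Q hQ
  -- the square
  have hpt : ∀ x ∈ Icc a b, ‖u' x - Matrix.toEuclideanLin (F x) (u x)‖ ^ 2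
      = (‖u' x‖ ^ 2 + ‖Matrix.toEuclideanLin K (u x)‖ ^ 2
        - (inner ℂ (u x) (Matrix.toEuclideanLin (Q x) (u x)) : ℂ).re)
        - (2 * (inner ℂ (u' x) (Matrix.toEuclideanLin (F x) (u x)) : ℂ).re
          + (inner ℂ (u x) (Matrix.toEuclideanLin (K * K - F x * F x - Q x) (u x)) : ℂ).re) := by
    intro x hx
    have e1 : ∀ A : Matrix (Fin N) (Fin N) ℂ, A.IsHermitian →
        (inner ℂ (u x) (Matrix.toEuclideanLin (A * A) (u x)) : ℂ).re
          = ‖Matrix.toEuclideanLin A (u x)‖ ^ 2 := by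
      intro A hA
      have h1 : Matrix.toEuclideanLin (A * A) (u x)
          = Matrix.toEuclideanLin A (Matrix.toEuclideanLin A (u x)) := by
        ext i
        simp [Matrix.toLpLin_apply, Matrix.mulVec_mulVec]
      rw [h1, inner_toEuclideanLin_herm hA, inner_self_eq_norm_sq_to_K]
      norm_cast
    have e2 := norm_sub_sq (𝕜 := ℂ) (u' x) (Matrix.toEuclideanLin (F x) (u x))
    simp only [RCLike.re_to_complex] at e2
    rw [e2, toEuclideanLin_sub, toEuclideanLin_sub, inner_sub_right, inner_sub_right,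
      Complex.sub_re, Complex.sub_re, e1 K hK, e1 (F x) (hFh x hx)]
    ring
  refine ⟨?_, ?_⟩
  · refine (((hi1.add hi2).sub hi6).sub (hi4.add hi5)).congr fun x hx => ?_
    rw [uIoc_of_le hab] at hx
    exact (hpt x (Ioc_subset_Icc_self hx)).symm
  · rw [← hftc]
    refine intervalIntegral.integral_congr fun x hx => ?_
    rw [uIcc_of_le hab] at hx
    rw [hpt x hx]
    ring

/-- The test inequality on the line, keeping the square on `[-a, a]`. -/
theorem test_line_sq (hu : IsH1 u u') {a : ℝ} (ha : 0 < a)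
    {K : Matrix (Fin N) (Fin N) ℂ} (hK : K.IsHermitian) {F Q : ℝ → Matrix (Fin N) (Fin N) ℂ}
    (hQ : Continuous Q)
    (hF : ∀ t ∈ Icc (-a) a, HasDerivWithinAt F (K * K - F t * F t - Q t) (Icc (-a) a) t)
    (hFh : ∀ t ∈ Icc (-a) a, (F t).IsHermitian) (h0 : F (-a) = K) (h1 : F a = -K) :
    (∫ x in (-a)..a, (inner ℂ (u x) (Matrix.toEuclideanLin (Q x) (u x)) : ℂ).re)
      + ∫ x in (-a)..a, ‖u' x - Matrix.toEuclideanLin (F x) (u x)‖ ^ 2
      ≤ ∫ x, (‖u' x‖ ^ 2 + ‖Matrix.toEuclideanLin K (u x)‖ ^ 2) := by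
  obtain ⟨hi, he⟩ := test_interval_eq hu (by linarith : -a ≤ a) hK hQ.continuousOn hF hFh
  have hq : IntervalIntegrable
      (fun x => (inner ℂ (u x) (Matrix.toEuclideanLin (Q x) (u x)) : ℂ).re) volume (-a) a := by
    refine Continuous.intervalIntegrable ?_ _ _
    have h1 := hu.continuous_self
    have h3 : Continuous fun x => Matrix.toEuclideanLin (Q x) (u x) :=
      (PiLp.continuous_toLp 2 _).comp (hQ.matrix_mulVec ((PiLp.continuous_ofLp 2 _).comp h1))
    exact Complex.continuous_re.comp (h1.inner h3)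
  rw [← intervalIntegral.integral_add hq hi]
  refine test_line hu hK (hq.add hi) (le_of_eq ?_)
  rw [← he, h0, h1]
  simp only [map_neg, LinearMap.neg_apply, inner_neg_right, Complex.neg_re]

end Vale.Agent.P371ED
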