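import Vale.Agent.P371.Bdl.B2

/-!
The deficit of the Gibbs and Golden-Thompson step, kept under the integral in `t`.
-/

namespace Vale.Agent.P371ED

open Matrix Filter Topology Set MeasureTheory
open Vale.Agent.P371 Vale.Agent.P371.GII
open scoped ComplexOrder MatrixOrder Matrix.Norms.L2Operator

set_option linter.unusedSectionVars false

variable {n : Type*} [Fintype n] [DecidableEq n]

/-- the deficit of the Gibbs and Golden-Thompson step at fixed `t` -/
noncomputable def dfc (K F Z : Matrix n n ℂ) (t : ℝ) : ℝ :=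
  GG t Z + (K * K - F * F).trace.re
    - ((Z + (t : ℂ) • (1 : Matrix n n ℂ)) * GII.lt K F t).trace.re

theorem dfc_eq (K F Z : Matrix n n ℂ) (t : ℝ) :
    dfc K F Z t = GG t Z + (K * K - F * F).trace.re
      - ((Z * GII.lt K F t).trace.re + t * (GII.lt K F t).trace.re) := by
  rw [dfc, add_mul, Matrix.trace_add, Complex.add_re, smul_mul_assoc, one_mul,
    Matrix.trace_smul, smul_eq_mul, Complex.re_ofReal_mul]

theorem dfc_nonneg {K F Z : Matrix n n ℂ} (hK : K.IsHermitian) {t : ℝ} (ht : 0 < t)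
    (hm : (K - F).PosSemidef) (hp : (K + F).PosSemidef) (hZ : Z.PosSemidef) :
    0 ≤ dfc K F Z t := by
  have h := trace_mul_lt_le hK ht hm hp hZ
  rw [dfc_eq]
  linarith only [h]

theorem pointwise_eq (K F Q : Matrix n n ℂ) (t : ℝ) {ν : ℝ} (hν : 0 < ν) :
    (GII.lt K F t * (K * K - F * F - Q)).trace.re
        + ((1 + ν) / ν) * GG t (((ν / (1 + ν) : ℝ) : ℂ) • Q)
      = Phi K F t + (1 / ν) * (t * (GII.lt K F t).trace.re - (K * K - F * F).trace.re)
        + ((1 + ν) / ν) * dfc K F (((ν / (1 + ν) : ℝ) : ℂ) • Q) t := by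
  have e1 : ((((ν / (1 + ν) : ℝ) : ℂ) • Q) * GII.lt K F t).trace.re
      = ν / (1 + ν) * (GII.lt K F t * Q).trace.re := by
    rw [smul_mul_assoc, Matrix.trace_smul, smul_eq_mul, Complex.re_ofReal_mul,
      Matrix.trace_mul_comm Q]
  have e2 : Phi K F t = (GII.lt K F t * (K * K - F * F)).trace.re + t * (GII.lt K F t).trace.re
      - (K * K - F * F).trace.re := by
    rw [Phi, add_mul, Matrix.trace_add, Complex.add_re, smul_mul_assoc, one_mul,
      Matrix.trace_smul, smul_eq_mul, Complex.re_ofReal_mul,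
      Matrix.trace_mul_comm (GII.lt K F t)]
  have e5 : (GII.lt K F t * (K * K - F * F - Q)).trace.re
      = (GII.lt K F t * (K * K - F * F)).trace.re - (GII.lt K F t * Q).trace.re := by
    rw [mul_sub (GII.lt K F t) (K * K - F * F) Q, Matrix.trace_sub, Complex.sub_re]
  rw [dfc_eq, e1, e2, e5]
  generalize (GII.lt K F t * (K * K - F * F)).trace.re = T1
  generalize (GII.lt K F t).trace.re = T2
  generalize (K * K - F * F).trace.re = T3
  generalize (GII.lt K F t * Q).trace.re = T4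
  generalize GG t (((ν / (1 + ν) : ℝ) : ℂ) • Q) = G
  field_simp
  ring

theorem continuousOn_dfc {K : Matrix n n ℂ} (hK : K.IsHermitian) {s : Set ℝ}
    {F Q : ℝ → Matrix n n ℂ} (hF : ContinuousOn F s) (hQ : ContinuousOn Q s)
    (hQp : ∀ x ∈ s, (Q x).PosSemidef)
    (h3 : ∀ x ∈ s, (K - F x).PosSemidef ∧ (K + F x).PosSemidef) {r : ℝ} (hr : 0 ≤ r) :
    ContinuousOn (fun p : ℝ × ℝ => dfc K (F p.1) ((r : ℂ) • Q p.1) p.2) (s ×ˢ Ioi 0) := by
  have c1 := continuousOn_lt hK hF h3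
  have c2 : ContinuousOn (fun p : ℝ × ℝ => F p.1) (s ×ˢ Ioi (0:ℝ)) :=
    hF.comp continuousOn_fst fun p hp => hp.1
  have c3 : ContinuousOn (fun p : ℝ × ℝ => Q p.1) (s ×ˢ Ioi (0:ℝ)) :=
    hQ.comp continuousOn_fst fun p hp => hp.1
  have c4 : ContinuousOn (fun p : ℝ × ℝ => ((p.2 : ℝ) : ℂ) • (1 : Matrix n n ℂ))
      (s ×ˢ Ioi (0:ℝ)) :=
    (Complex.continuous_ofReal.comp_continuousOn continuousOn_snd).smul continuousOn_const
  have c5 := continuousOn_GG hQ hQp hr
  have ct := continuous_trace_re (n := n)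
  exact (c5.add (ct.comp_continuousOn (continuousOn_const.sub (c2.mul c2)))).sub
    (ct.comp_continuousOn (((c3.const_smul (r : ℂ)).add c4).mul c1))

theorem continuousOn_dfc_t {K F Q : Matrix n n ℂ} (hK : K.IsHermitian)
    (hm : (K - F).PosSemidef) (hp : (K + F).PosSemidef) (hQ : Q.PosSemidef) {r : ℝ}
    (hr : 0 ≤ r) : ContinuousOn (fun t : ℝ => dfc K F ((r : ℂ) • Q) t) (Ioi 0) := by
  have c := continuousOn_dfc (s := univ) (F := fun _ => F) (Q := fun _ => Q) hK
    continuousOn_const continuousOn_const (fun _ _ => hQ) (fun _ _ => ⟨hm, hp⟩) hr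
  exact c.comp (f := fun t : ℝ => ((0 : ℝ), t)) (by fun_prop) fun t ht => ⟨mem_univ _, ht⟩

theorem continuousOn_rpow_Ioi (p : ℝ) : ContinuousOn (fun t : ℝ => t ^ p) (Ioi 0) :=
  ContinuousOn.rpow_const continuousOn_id fun _ ht => Or.inl (ne_of_gt ht)

/-- for fixed `x`, integrate in `t`, keeping the deficit -/
theorem integral_t_ge_dfc {K F Q : Matrix n n ℂ} (hK : K.IsHermitian) {ν : ℝ} (hν : 0 < ν)
    (hm : (K - F).PosSemidef) (hp : (K + F).PosSemidef) (hQ : Q.PosSemidef) (hJ : J2 K F)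
    {δ Λ : ℝ} (hδ : 0 < δ) (hΛ : δ ≤ Λ) (hE : ContinuousOn (EE ν K F Q) (Icc δ Λ)) :
    (1 / ν) * (Λ ^ ν * Phi K F Λ) - (1 / ν) * (δ ^ ν * Phi K F δ)
      + ((1 + ν) / ν) * ∫ t in δ..Λ, t ^ (ν - 1) * dfc K F (((ν / (1 + ν) : ℝ) : ℂ) • Q) t
      ≤ ∫ t in δ..Λ, EE ν K F Q t := by
  have hθ : 0 ≤ ν / (1 + ν) := by positivity
  have hsub : Icc δ Λ ⊆ Ioi (0 : ℝ) := fun t ht => lt_of_lt_of_le hδ ht.1
  have cD : ContinuousOn (fun t : ℝ => t ^ (ν - 1) * dfc K F (((ν / (1 + ν) : ℝ) : ℂ) • Q) t)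
      (Icc δ Λ) :=
    ((continuousOn_rpow_Ioi (ν - 1)).mul (continuousOn_dfc_t hK hm hp hQ hθ)).mono hsub
  have iD : IntervalIntegrable
      (fun t : ℝ => t ^ (ν - 1) * dfc K F (((ν / (1 + ν) : ℝ) : ℂ) • Q) t) volume δ Λ := by
    apply ContinuousOn.intervalIntegrable
    rw [uIcc_of_le hΛ]
    exact cD
  have iE : IntervalIntegrable (EE ν K F Q) volume δ Λ := by
    apply ContinuousOn.intervalIntegrable
    rw [uIcc_of_le hΛ]
    exact hE
  have hex : ∀ t : ℝ, ∃ d : ℝ, 0 < t → (d ≤ Fintype.card n ∧ HasDerivAt (fun t => Phi K F t)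
      (d - Fintype.card n + (GII.lt K F t).trace.re - (K * K - F * F).trace.re / t) t) := by
    intro t
    by_cases ht : 0 < t
    · obtain ⟨d, hd⟩ := hasDerivAt_Phi hK hm hp hJ ht
      exact ⟨d, fun _ => hd⟩
    · exact ⟨0, fun h => absurd h ht⟩
  choose d hd using hex
  have hder : ∀ t : ℝ, 0 < t → HasDerivAt (fun t => (1 / ν) * (t ^ ν * Phi K F t))
      ((1 / ν) * (ν * t ^ (ν - 1) * Phi K F t + t ^ ν * (d t - Fintype.card n
        + (GII.lt K F t).trace.re - (K * K - F * F).trace.re / t))) t := by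
    intro t ht
    have h1 := Real.hasDerivAt_rpow_const (x := t) (p := ν) (Or.inl ht.ne')
    exact (h1.mul (hd t ht).2).const_mul (1 / ν)
  have key : (1 / ν) * (Λ ^ ν * Phi K F Λ) - (1 / ν) * (δ ^ ν * Phi K F δ)
      ≤ ∫ t in δ..Λ, (EE ν K F Q t - ((1 + ν) / ν) *
        (t ^ (ν - 1) * dfc K F (((ν / (1 + ν) : ℝ) : ℂ) • Q) t)) := by
    apply intervalIntegral.sub_le_integral_of_hasDeriv_right_of_le hΛ
      (g := fun t => (1 / ν) * (t ^ ν * Phi K F t))
      (g' := fun t => (1 / ν) * (ν * t ^ (ν - 1) * Phi K F t + t ^ ν * (d t - Fintype.card n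
          + (GII.lt K F t).trace.re - (K * K - F * F).trace.re / t)))
    · intro t ht
      exact (hder t (lt_of_lt_of_le hδ ht.1)).continuousAt.continuousWithinAt
    · intro t ht
      exact (hder t (lt_trans hδ ht.1)).hasDerivWithinAt
    · exact (hE.sub (continuousOn_const.mul cD)).integrableOn_compact isCompact_Icc
    · intro t ht
      have ht0 : 0 < t := lt_trans hδ ht.1
      have h1 := pointwise_eq K F Q t hν
      have h2 := (hd t ht0).1
      have hr : 0 < t ^ (ν - 1) := Real.rpow_pos_of_pos ht0 _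
      have hr2 : t ^ ν = t ^ (ν - 1) * t := by
        rw [← Real.rpow_add_one ht0.ne']
        congr 1
        ring
      have h3 : (1 / ν) * (ν * t ^ (ν - 1) * Phi K F t + t ^ ν * (d t - Fintype.card n
          + (GII.lt K F t).trace.re - (K * K - F * F).trace.re / t))
          = t ^ (ν - 1) * (Phi K F t + (1 / ν) * (t * (GII.lt K F t).trace.re
            - (K * K - F * F).trace.re) + (1 / ν) * t * (d t - Fintype.card n)) := by
        rw [hr2]
        field_simp
        ring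
      have h4 : (1 / ν) * t * (d t - Fintype.card n) ≤ 0 :=
        mul_nonpos_of_nonneg_of_nonpos (by positivity) (by linarith only [h2])
      have h5 := mul_le_mul_of_nonneg_left h4 hr.le
      rw [h3, EE, h1]
      linarith only [h5]
  rw [intervalIntegral.integral_sub iE (iD.const_mul _), intervalIntegral.integral_const_mul]
    at key
  linarith only [key]

end Vale.Agent.P371ED
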